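import Vale.Agent.P190.Hilb.Poly

/-! Saturation of dual families and the functional picture of the trace pairing. -/

namespace Vale.Agent.P190.Hilb

open Submodule

variable {k K : Type} [Field k] [Field K] [Algebra k K] {η ζ : K} {ι : Type} [Fintype ι]

/-- The trace pairing with `w`, as a functional over the base field. -/
noncomputable def pair (η ζ : K) (w : ι → K) : (ι → K) →ₗ[ratField k η ζ] ratField k η ζ :=
  (Algebra.trace (ratField k η ζ) K) ∘ₗ
    ∑ i, (LinearMap.mulLeft (ratField k η ζ) (w i)) ∘ₗ LinearMap.proj i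

theorem pair_apply (w v : ι → K) :
    pair (k := k) η ζ w v = Algebra.trace (ratField k η ζ) K (∑ i, w i * v i) := by
  simp [pair]

theorem mem_dualFam {N : ℤ → Submodule k (ι → K)} {n : ℤ} {w : ι → K} :
    w ∈ dualFam η ζ N n ↔
      ∀ j, ∀ v ∈ N j, ((pair (k := k) η ζ w v : ratField k η ζ) : K)
        ∈ polySpace (k := k) η ζ (n + j - 3) := by
  simp only [pair_apply]
  rfl

theorem pair_smul_left {e : K} (he : e ∈ ratField k η ζ) (w v : ι → K) :
    ((pair (k := k) η ζ (e • w) v : ratField k η ζ) : K) = e * pair (k := k) η ζ w v := by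
  have : ∑ i, (e • w) i * v i = (⟨e, he⟩ : ratField k η ζ) • ∑ i, w i * v i := by
    rw [Finset.smul_sum]
    refine Finset.sum_congr rfl fun i _ => ?_
    rw [IntermediateField.smul_def]
    simp [mul_assoc]
  rw [pair_apply, pair_apply, this, map_smul]
  rfl

theorem eta_ratField : η ∈ ratField k η ζ := IntermediateField.subset_adjoin k _ (by simp)

theorem zeta_ratField : ζ ∈ ratField k η ζ := IntermediateField.subset_adjoin k _ (by simp)

theorem dualFam_mono {N : ℤ → Submodule k (ι → K)} {m n : ℤ} (h : m ≤ n) :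
    dualFam η ζ N m ≤ dualFam η ζ N n := fun w hw => by
  rw [mem_dualFam] at hw ⊢
  exact fun j v hv => polySpace_mono (by omega) (hw j v hv)

theorem mul_mem_dualFam {N : ℤ → Submodule k (ι → K)} {n : ℤ} {w : ι → K} {e : K}
    (he : e ∈ ({η, ζ} : Set K)) (hw : w ∈ dualFam η ζ N n) :
    e • w ∈ dualFam η ζ N (n + 1) := by
  rw [mem_dualFam] at hw ⊢
  intro j v hv
  have hp : e ∈ polySpace (k := k) η ζ 1 := by
    rcases he with rfl | rfl
    exacts [eta_mem, zeta_mem]
  rw [pair_smul_left (IntermediateField.subset_adjoin k _ he),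
    show n + 1 + j - 3 = 1 + (n + j - 3) by ring]
  exact mul_mem_polySpace hp (hw j v hv)

/-- Dual families are saturated. -/
theorem dualFam_sat (hind : AlgebraicIndependent k ![η, ζ]) {N : ℤ → Submodule k (ι → K)} {n : ℤ}
    {w : ι → K} (hw : w ∈ dualFam η ζ N (n + 1)) (hw' : η • w ∈ dualFam η ζ N (n + 1)) :
    w ∈ dualFam η ζ N n := by
  rw [mem_dualFam] at hw hw' ⊢
  intro j v hv
  have h1 := hw j v hv
  have h2 := hw' j v hv
  rw [pair_smul_left eta_ratField] at h2
  rw [show n + 1 + j - 3 = n + j - 3 + 1 by ring] at h1 h2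
  exact polySpace_sat hind h1 h2

variable [FiniteDimensional (ratField k η ζ) K] [Algebra.IsSeparable (ratField k η ζ) K]

theorem pair_injective {w : ι → K} (h : pair (k := k) η ζ w = 0) : w = 0 := by
  classical
  funext i
  refine (traceForm_nondegenerate (ratField k η ζ) K).1 _ fun v => ?_
  have := LinearMap.congr_fun h (Pi.single i v)
  rw [pair_apply, Finset.sum_eq_single i (fun j _ hj => by simp [hj]) (by simp)] at this
  simpa [Algebra.traceForm_apply] using this

theorem pair_surjective (Φ : (ι → K) →ₗ[ratField k η ζ] ratField k η ζ) :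
    ∃ w, pair (k := k) η ζ w = Φ := by
  classical
  have hb := traceForm_nondegenerate (ratField k η ζ) K
  refine ⟨fun i => (LinearMap.BilinForm.toDual _ hb).symm
    (Φ ∘ₗ LinearMap.single (ratField k η ζ) (fun _ : ι => K) i), ?_⟩
  refine LinearMap.pi_ext fun i v => ?_
  rw [pair_apply, Finset.sum_eq_single i (fun j _ hj => by simp [hj]) (by simp)]
  rw [← Algebra.traceForm_apply, Pi.single_eq_same, LinearMap.BilinForm.apply_toDual_symm_apply]
  rfl

end Vale.Agent.P190.Hilb
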