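import Vale.Agent.P190.Hilb.Bridge

/-! The shift of the canonical family of a cone is bounded by the generation degree. -/

namespace Vale.Agent.P190.Hilb

open Submodule Module

variable {k K : Type} [Field k] [Field K] [Algebra k K]

/-- The canonical family vanishes below degree `3 - g`. -/
theorem omega_eq_bot (C : Cone k K) {n : ℤ} (hn : n + C.g < 3) : C.omega n = ⊥ := by
  have hfd := finiteDimensional_cone C
  have hsep := C.sep
  rw [eq_bot_iff]
  intro u hu
  rw [Submodule.mem_bot]
  have h0 : ∀ v ∈ C.R C.g, Algebra.trace (ratField k C.η C.ζ) K (u 0 * v) = 0 := by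
    intro v hv
    have h := hu (C.g : ℤ) (fun _ => v) (by simpa [one1] using hv)
    rw [polySpace_neg (by omega), Submodule.mem_bot, Fin.sum_univ_one] at h
    exact Subtype.ext h
  have hall : ∀ x : K, Algebra.trace (ratField k C.η C.ζ) K (u 0 * x) = 0 := by
    intro x
    have hx : x ∈ span (ratField k C.η C.ζ) (C.R C.g : Set K) := C.span_top ▸ Submodule.mem_top
    induction hx using Submodule.span_induction with
    | zero => simp
    | add p q _ _ hp hq => rw [mul_add, map_add, hp, hq, add_zero]
    | smul e p _ hp => rw [mul_smul_comm, map_smul, hp, smul_zero]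
    | mem p hp => exact h0 p hp
  have hu0 : u 0 = 0 := by
    refine traceForm_nondegenerate (ratField k C.η C.ζ) K |>.1 _ fun x => ?_
    rw [Algebra.traceForm_apply]
    exact hall x
  funext i
  rw [Fin.eq_zero i, hu0, Pi.zero_apply]

/-- If the canonical family is the ring shifted by `a` then `a + 3 ≤ g`. -/
theorem omega_shift_le (C : Cone k K) {a : ℤ} {w : K} (hw : w ≠ 0)
    (h : ∀ n, C.omega n = (one1 C.R (n + a)).map (DistribSMul.toLinearMap k (Fin 1 → K) w)) :
    a + 3 ≤ C.g := by
  by_contra hc
  have h1 : w • (fun _ : Fin 1 => (1 : K)) ∈ C.omega (-a) := by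
    rw [h]
    refine ⟨fun _ => 1, ?_, rfl⟩
    show (1 : K) ∈ C.R (-a + a)
    rw [neg_add_cancel, C.R_zero]
    exact mem_span_singleton_self _
  rw [omega_eq_bot C (by omega), Submodule.mem_bot] at h1
  exact hw (by simpa using congrFun h1 0)

end Vale.Agent.P190.Hilb
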