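import Vale.Agent.P190.Hilb.H0

/-! Modules whose submodules have bounded slope have small Hilbert functions. -/

namespace Vale.Agent.P190.Hilb

open Submodule Module Filter

variable {k K : Type} [Field k] [Field K] [Algebra k K]

theorem finrank_congr_field {E₁ E₂ : IntermediateField k K} (h : E₁ = E₂) (ι : Type) :
    finrank E₁ (ι → K) = finrank E₂ (ι → K) := by
  subst h; rfl

variable [Infinite k]

/-- The increment bound for a reflexive family spanned in one degree. -/
theorem increment_bound {η ζ : K} {m : ℕ} (hind : AlgebraicIndependent k ![η, ζ])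
    [FiniteDimensional (ratField k η ζ) K] [Algebra.IsSeparable (ratField k η ζ) K]
    {N : ℤ → Submodule k (Fin m → K)} (hN : Fam η ζ N)
    (hrefl : ∀ n, dualFam η ζ (dualFam η ζ N) n ≤ N n) {D : ℕ}
    (hD : D = finrank (ratField k η ζ) (Fin m → K)) {e c : ℚ} (hP : HasPoly N (D : ℚ) e c)
    {n n₁ g : ℤ} (hg : 0 ≤ g) (hn₁ : n₁ ≤ n + g)
    (hspan : span (ratField k η ζ) (N n₁ : Set (Fin m → K)) = ⊤) :
    (finrank k (N n) : ℚ) - finrank k (N (n - 1)) ≤ (D : ℚ) * ((n : ℚ) + 1 + g) + e := by
  classical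
  -- a basis in degree `n₁` and one in the dual
  obtain ⟨b, hb, hbspan, hli⟩ :=
    exists_linearIndependent (ratField k η ζ) (N n₁ : Set (Fin m → K))
  rw [hspan] at hbspan
  have : Fintype b := hli.setFinite.fintype
  obtain ⟨ι, _, w, ms, hw, hwli, hwspan, hwcard⟩ := exists_indep_gens (hN.dual hind)
  have hbcard : Fintype.card b = finrank (ratField k η ζ) (Fin m → K) := by
    rw [← finrank_span_eq_card hli, show Set.range (fun x : b => (x : Fin m → K)) = b from
      Subtype.range_coe, hbspan, finrank_top]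
  let ε : ι ≃ b := Fintype.equivOfCardEq (by rw [hwcard, hbcard])
  let z : ι → Fin m → K := fun i => (ε i : Fin m → K)
  have hz : ∀ i, z i ∈ N n₁ := fun i => hb (ε i).2
  have hzli : LinearIndependent (ratField k η ζ) z := hli.comp _ ε.injective
  set δ : ℤ := ∑ s, (n₁ + ms s - 3) with hδ
  let ME : Matrix ι ι (ratField k η ζ) := Matrix.of fun s l => pair (k := k) η ζ (w s) (z l)
  set Mx : Matrix ι ι K := Matrix.of fun s l =>
    ((pair (k := k) η ζ (w s) (z l) : ratField k η ζ) : K) with hMx
  have hMxE : Mx.det = ((ME.det : ratField k η ζ) : K) :=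
    (RingHom.map_det (algebraMap (ratField k η ζ) K) ME).symm
  have hdet0 : Mx.det ≠ 0 := by
    intro h0
    have hE : ME.det = 0 := Subtype.ext (hMxE.symm.trans h0)
    obtain ⟨v, hv0, hv⟩ := Matrix.exists_mulVec_eq_zero_iff.mpr hE
    refine hv0 (funext fun i => Fintype.linearIndependent_iff.mp hzli v ?_ i)
    refine pair_injective (k := k) (η := η) (ζ := ζ) (LinearMap.ext_on hwspan ?_)
    rintro _ ⟨s, rfl⟩
    have hs : pair (k := k) η ζ (∑ i, v i • z i) (w s)
        = pair (k := k) η ζ (w s) (∑ i, v i • z i) := by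
      rw [pair_apply, pair_apply]
      congr 1
      exact Finset.sum_congr rfl fun _ _ => mul_comm _ _
    rw [hs, map_sum, LinearMap.zero_apply]
    refine (Finset.sum_congr rfl fun i _ => ?_).trans (congrFun hv s)
    rw [map_smul, smul_eq_mul, mul_comm]
    rfl
  have hMmem : ∀ s l, Mx s l ∈ polySpace (k := k) η ζ (n₁ + ms s - 3) := fun s l => by
    have := mem_dualFam.mp (hw s) n₁ (z l) (hz l)
    rwa [show ms s + n₁ - 3 = n₁ + ms s - 3 by ring] at this
  have hdetmem : Mx.det ∈ polySpace (k := k) η ζ δ := det_mem_polySpace hMmem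
  -- a linear form not dividing the determinant
  obtain ⟨α, hα⟩ : ∃ α : k, ∀ q ∈ polySpace (k := k) η ζ (δ - 1), Mx.det ≠ lin α η * q := by
    have hδ0 : 0 ≤ δ := by
      by_contra hneg
      rw [polySpace_neg (by omega), Submodule.mem_bot] at hdetmem
      exact hdet0 hdetmem
    obtain ⟨d, hd⟩ := Int.eq_ofNat_of_zero_le hδ0
    rw [hd] at hdetmem
    obtain ⟨P, -, hP⟩ := mem_polySpace.mp hdetmem
    have hP0 : P ≠ 0 := by rintro rfl; exact hdet0 (by rw [← hP, map_zero])
    obtain ⟨f, hf⟩ : ∃ f : Fin 2 → k, MvPolynomial.eval f (MvPolynomial.X 0 * P) ≠ 0 := by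
      by_contra hc
      push Not at hc
      exact mul_ne_zero (MvPolynomial.X_ne_zero 0) hP0
        (MvPolynomial.funext fun f => by rw [hc f, map_zero])
    rw [map_mul, MvPolynomial.eval_X] at hf
    refine ⟨-(f 0)⁻¹, fun q hq he => ?_⟩
    rcases lt_or_ge (δ - 1) 0 with hneg | hpos
    · rw [polySpace_neg hneg, Submodule.mem_bot] at hq
      exact hdet0 (by rw [he, hq, mul_zero])
    obtain ⟨j, hj⟩ := Int.eq_ofNat_of_zero_le hpos
    rw [hj] at hq
    obtain ⟨Q, -, hQ⟩ := mem_polySpace.mp hq
    have hPQ : P = (1 + MvPolynomial.C (-(f 0)⁻¹) * MvPolynomial.X 0) * Q := by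
      refine ev_injective hind ?_
      rw [hP, map_mul, hQ, he]
      congr 1
      simp [ev, lin, Algebra.smul_def]
    apply hf
    rw [hPQ]
    simp [inv_mul_cancel₀ (left_ne_zero_of_mul hf)]
  set l := lin α η with hldef
  have hl : l ≠ 0 := lin_ne_zero hind α
  have hind' := indep_change hind α
  have : FiniteDimensional (ratField k (η / l) (ζ / l)) K :=
    finite_congr (ratField_change (k := k) (η := η) (ζ := ζ) hl).symm
  have : Algebra.IsSeparable (ratField k (η / l) (ζ / l)) K :=
    sep_congr (ratField_change (k := k) (η := η) (ζ := ζ) hl).symm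
  have hP' : HasPoly (scaleFam α η N) (D : ℚ) e c :=
    hP.mono fun j hj => by rw [finrank_scaleFam hl]; exact hj
  let w' : ι → Fin m → K := fun s => l ^ (3 - ms s) • w s
  let z' : ι → Fin m → K := fun i => l ^ (-n₁) • z i
  have hspan' : span (ratField k (η / l) (ζ / l)) (Set.range w') = ⊤ := by
    rw [eq_top_iff]
    intro x hx0
    clear hx0
    have hx : x ∈ span (ratField k η ζ) (Set.range w) := hwspan ▸ Submodule.mem_top
    induction hx using Submodule.span_induction with
    | zero => simp
    | add u v _ _ hu hv => exact add_mem hu hv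
    | smul a u _ hu =>
      exact Submodule.smul_mem _
        (⟨a.1, (ratField_change hl).symm ▸ a.2⟩ : ratField k (η / l) (ζ / l)) hu
    | mem u hu =>
      obtain ⟨s, rfl⟩ := hu
      have := Submodule.smul_mem (span (ratField k (η / l) (ζ / l)) (Set.range w'))
        (⟨l ^ (ms s - 3), (ratField_change hl).symm ▸ zpow_mem_ratField α _⟩ :
          ratField k (η / l) (ζ / l)) (subset_span ⟨s, rfl⟩)
      convert this using 1
      show w s = l ^ (ms s - 3) • l ^ (3 - ms s) • w s
      rw [smul_smul, ← zpow_add₀ hl, show ms s - 3 + (3 - ms s) = 0 by ring, zpow_zero, one_smul]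
  have hdet' : Matrix.det (Matrix.of fun s i =>
        ((pair (k := k) (η / l) (ζ / l) (w' s) (z' i) : ratField k (η / l) (ζ / l)) : K))
      ∉ polySpace (k := k) (η / l) (ζ / l) (δ - 1) := by
    have e1 : (Matrix.of fun s i =>
        ((pair (k := k) (η / l) (ζ / l) (w' s) (z' i) : ratField k (η / l) (ζ / l)) : K))
        = Matrix.of fun s i => l ^ (-(n₁ + ms s - 3)) * Mx s i := by
      ext s i
      simp only [Matrix.of_apply, w', z', hMx]
      rw [pair_change hl, pair_smul_left (zpow_mem_ratField α _),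
        pair_smul_right (zpow_mem_ratField α _), ← mul_assoc, ← zpow_add₀ hl]
      congr 2
      ring
    rw [e1, Matrix.det_mul_column, polySpace_change hl]
    rintro ⟨q, hq, hqe⟩
    refine hα q hq ?_
    have hprod : ∀ t : Finset ι, ∏ s ∈ t, l ^ (-(n₁ + ms s - 3))
        = l ^ (-∑ s ∈ t, (n₁ + ms s - 3)) := by
      intro t
      induction t using Finset.induction_on with
      | empty => simp
      | insert s t hs ih =>
        rw [Finset.prod_insert hs, ih, Finset.sum_insert hs, ← zpow_add₀ hl]
        congr 1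
        ring
    have hqe' : l ^ (-(δ - 1)) * q = l ^ (-δ) * Mx.det := by
      rw [hδ, ← hprod]; exact hqe
    rw [show -(δ - 1) = -δ + 1 by ring, zpow_add₀ hl, zpow_one, mul_assoc] at hqe'
    exact (mul_left_cancel₀ (zpow_ne_zero _ hl) hqe').symm
  have h := top_bound hind' (scaleFam_fam hind α hN hrefl) (scaleFam_refl hl hrefl)
    (D := D) (hD.trans (finrank_congr_field (ratField_change hl).symm (Fin m))) hP'
    z' w' ms (fun i => ⟨z i, hz i, rfl⟩) (fun s => dual_change hl (hw s)) hspan' hdet' hg hn₁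
  rwa [finrank_scaleFam hl, finrank_scaleFam hl] at h

/-- The square of the positive part. -/
def posSq (x : ℚ) : ℚ := max x 0 ^ 2 / 2

theorem posSq_step (x : ℚ) : posSq (x - 1) + max (x - 1) 0 ≤ posSq x := by
  rcases le_total x 1 with h | h
  · rw [posSq, posSq, max_eq_right (by linarith : x - 1 ≤ 0)]
    simp only [ne_eq, OfNat.ofNat_ne_zero, not_false_eq_true, zero_pow, zero_div, add_zero]
    positivity
  · rw [posSq, posSq, max_eq_left (by linarith : (0 : ℚ) ≤ x - 1),
      max_eq_left (by linarith : (0 : ℚ) ≤ x)]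
    nlinarith

/-- A module all of whose submodules have slope at most `s` has
`H(n) ≤ rank · (n + s + g + 2)²/2`. -/
theorem h0_bound (C : Cone k K) {r : ℕ} {N : ℤ → Submodule k (Fin r → K)} (hN : C.IsMod N)
    {s : ℚ} (hs : ∀ V : Submodule K (Fin r → K), V ≠ ⊥ → ∀ eV cV : ℚ,
      HasPoly (Cone.part N V) ((C.d * finrank K V : ℕ) : ℚ) eV cV →
      eV ≤ s * ((C.d * finrank K V : ℕ) : ℚ)) (n : ℤ) :
    (finrank k (N n) : ℚ) ≤ ((C.d * r : ℕ) : ℚ) * posSq ((n : ℚ) + s + C.g + 2) := by
  have hfd := finiteDimensional_cone C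
  have hsep := C.sep
  have hF := isMod_fam C hN
  have hcl := hF.toClosed
  have inc : ∀ j : ℤ, (finrank k (N j) : ℚ) - finrank k (N (j - 1))
      ≤ ((C.d * r : ℕ) : ℚ) * max ((j : ℚ) + s + C.g + 1) 0 := by
    intro j
    have hfdN := hN.fd
    set V : Submodule K (Fin r → K) := span K (N j : Set (Fin r → K)) with hV
    rcases eq_or_ne V ⊥ with h0 | h0
    · have : N j = ⊥ := by
        rw [eq_bot_iff]
        intro v hv
        have hvV : v ∈ V := subset_span hv
        rw [h0, Submodule.mem_bot] at hvV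
        rw [Submodule.mem_bot]; exact hvV
      rw [this, finrank_bot]
      have : (0 : ℚ) ≤ ((C.d * r : ℕ) : ℚ) * max ((j : ℚ) + s + C.g + 1) 0 := by positivity
      have : (0 : ℚ) ≤ (finrank k (N (j - 1)) : ℚ) := by positivity
      push_cast at *
      linarith
    set m := finrank K V with hm
    let φ : (Fin m → K) →ₗ[K] (Fin r → K) :=
      V.subtype ∘ₗ (Module.finBasis K V).equivFun.symm.toLinearMap
    have hφ : Function.Injective φ :=
      Subtype.val_injective.comp (Module.finBasis K V).equivFun.symm.injective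
    have hφr : ∀ x ∈ V, ∃ u, φ u = x := fun x hx =>
      ⟨(Module.finBasis K V).equivFun ⟨x, hx⟩, by simp [φ]⟩
    have hrefl' : ∀ i, dualFam C.η C.ζ (dualFam C.η C.ζ (coordPart φ N)) i ≤ coordPart φ N i :=
      coordPart_reflexive φ fun i => (hN.reflexive i).le
    have hF' := coordPart_fam C.indep φ hφ hF
    obtain ⟨eV, cV, hPV, -⟩ := exists_hasPoly C.indep hF'
    rw [finrank_pi_cone C m] at hPV
    have hrk : ∀ i, finrank k (coordPart φ N i) = finrank k (Cone.part N V i) := by
      intro i
      rw [(Submodule.equivMapOfInjective (φ.restrictScalars k) hφ (coordPart φ N i)).finrank_eq]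
      have e : (coordPart φ N i).map (φ.restrictScalars k) = Cone.part N V i := by
        refine le_antisymm ?_ ?_
        · rintro _ ⟨u, hu, rfl⟩
          refine ⟨hu, ?_⟩
          show φ u ∈ V
          exact ((Module.finBasis K V).equivFun.symm u).2
        · rintro x ⟨hx, hxV⟩
          obtain ⟨u, rfl⟩ := hφr x hxV
          exact ⟨u, hx, rfl⟩
      rw [e]
    have heV := hs V h0 eV cV (hPV.mono fun i hi => by rw [← hrk]; exact hi)
    have hspan : span (ratField k C.η C.ζ) (coordPart φ N (C.g + j) : Set (Fin m → K)) = ⊤ := by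
      rw [eq_top_iff]
      intro u hu0
      clear hu0
      set S := span (ratField k C.η C.ζ) (coordPart φ N (C.g + j) : Set (Fin m → K))
      have hK : ∀ (a : K) (v : Fin m → K), φ v ∈ N j → a • v ∈ S := by
        intro a v hv
        have ha : a ∈ span (ratField k C.η C.ζ) (C.R C.g : Set K) := C.span_top ▸ Submodule.mem_top
        induction ha using Submodule.span_induction with
        | zero => simp
        | add p q _ _ hp hq => rw [add_smul]; exact add_mem hp hq
        | smul e p _ hp => rw [smul_assoc]; exact Submodule.smul_mem _ _ hp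
        | mem p hp =>
          refine subset_span ?_
          show φ (p • v) ∈ N _
          rw [map_smul]
          exact hN.smul_mem _ _ p hp _ hv
      have hu : φ u ∈ V := ((Module.finBasis K V).equivFun.symm u).2
      rw [hV, Submodule.mem_span_set'] at hu
      obtain ⟨q, a, v, hav⟩ := hu
      have hvV : ∀ i, (v i : Fin r → K) ∈ V := fun i => subset_span (v i).2
      choose u' hu' using fun i => hφr _ (hvV i)
      have : u = ∑ i, a i • u' i := hφ (by
        rw [map_sum, ← hav]
        simp [map_smul, hu'])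
      rw [this]
      exact sum_mem fun i _ => hK _ _ (by rw [hu']; exact (v i).2)
    have h := increment_bound C.indep hF' hrefl' (D := C.d * m)
      (finrank_pi_cone C m).symm hPV (n := j) (n₁ := C.g + j) (g := C.g) (by simp)
      (le_of_eq (add_comm _ _)) hspan
    rw [hrk, hrk] at h
    have e1 : Cone.part N V j = N j := inf_eq_left.mpr fun v hv => subset_span hv
    have e2 : Cone.part N V (j - 1) = N (j - 1) :=
      inf_eq_left.mpr fun v hv => subset_span (hcl.mono_le (by omega) hv)
    rw [e1, e2] at h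
    have hmr : m ≤ r := by
      have := V.finrank_le
      simpa [hm] using this
    have hle : ((C.d * m : ℕ) : ℚ) ≤ ((C.d * r : ℕ) : ℚ) := by
      exact_mod_cast Nat.mul_le_mul_left _ hmr
    have h2 : ((C.d * m : ℕ) : ℚ) * ((j : ℚ) + s + C.g + 1)
        ≤ ((C.d * r : ℕ) : ℚ) * max ((j : ℚ) + s + C.g + 1) 0 :=
      le_trans (mul_le_mul_of_nonneg_left (le_max_left _ 0) (by positivity))
        (mul_le_mul_of_nonneg_right hle (le_max_right _ _))
    push_cast at h h2 heV ⊢
    nlinarith
  obtain ⟨n₀, hn₀⟩ := hN.below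
  have base : ∀ j < n₀, (finrank k (N j) : ℚ) ≤
      ((C.d * r : ℕ) : ℚ) * posSq ((j : ℚ) + s + C.g + 2) := fun j hj => by
    rw [hn₀ j hj, finrank_bot, Nat.cast_zero, posSq]
    positivity
  suffices ∀ i : ℕ, (finrank k (N (n₀ - 1 + i)) : ℚ) ≤
      ((C.d * r : ℕ) : ℚ) * posSq (((n₀ - 1 + i : ℤ) : ℚ) + s + C.g + 2) by
    rcases lt_or_ge n n₀ with h | h
    · exact base n h
    · obtain ⟨i, hi⟩ := Int.eq_ofNat_of_zero_le (show 0 ≤ n - (n₀ - 1) by omega)
      have := this i
      rwa [show n₀ - 1 + (i : ℤ) = n by omega] at this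
  intro i
  induction i with
  | zero => exact base _ (by simp)
  | succ i ih =>
    have h := inc (n₀ - 1 + (i + 1 : ℕ))
    rw [show n₀ - 1 + ((i + 1 : ℕ) : ℤ) - 1 = n₀ - 1 + (i : ℤ) by push_cast; ring] at h
    set x : ℚ := (((n₀ - 1 + (i + 1 : ℕ) : ℤ)) : ℚ) + s + C.g + 2 with hx
    have e : (((n₀ - 1 + (i : ℤ)) : ℤ) : ℚ) + s + C.g + 2 = x - 1 := by
      rw [hx]; push_cast; ring
    rw [e] at ih
    rw [show (((n₀ - 1 + (i + 1 : ℕ) : ℤ)) : ℚ) + s + C.g + 1 = x - 1 by rw [hx]; ring] at h
    have h3 := mul_le_mul_of_nonneg_left (posSq_step x) (show (0 : ℚ) ≤ ((C.d * r : ℕ) : ℚ) by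
      positivity)
    rw [mul_add] at h3
    linarith

end Vale.Agent.P190.Hilb
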