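import Vale.Agent.P190.Hilb.Reflexive

/-! Modules over a cone as families; intersections with `K`-subspaces. -/

namespace Vale.Agent.P190.Hilb

open Submodule Module Filter

variable {k K : Type} [Field k] [Field K] [Algebra k K]

theorem finiteDimensional_cone (C : Cone k K) :
    FiniteDimensional (ratField k C.η C.ζ) K :=
  Module.finite_of_finrank_pos (by rw [C.finrank_K]; exact C.d_pos)

theorem finrank_pi_cone (C : Cone k K) (r : ℕ) :
    finrank (ratField k C.η C.ζ) (Fin r → K) = C.d * r := by
  have := finiteDimensional_cone C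
  rw [Module.finrank_pi_fintype]
  simp [C.finrank_K, mul_comm]

theorem isMod_closed (C : Cone k K) {r : ℕ} {N : ℤ → Submodule k (Fin r → K)} (hN : C.IsMod N) :
    Closed C.η C.ζ N where
  mono n v hv := by
    have := hN.smul_mem 1 n 1 C.one_mem v hv
    rwa [one_smul, add_comm] at this
  eta n v hv := by
    have := hN.smul_mem 1 n C.η C.η_mem v hv
    rwa [add_comm] at this
  zeta n v hv := by
    have := hN.smul_mem 1 n C.ζ C.ζ_mem v hv
    rwa [add_comm] at this

theorem isMod_fam (C : Cone k K) {r : ℕ} {N : ℤ → Submodule k (Fin r → K)} (hN : C.IsMod N) :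
    Fam C.η C.ζ N := by
  refine ⟨isMod_closed C hN, hN.fd, hN.below, fun n v hv hv' => ?_, hN.gen, ?_⟩
  · rw [← hN.reflexive] at hv hv' ⊢
    exact dualFam_sat C.indep hv hv'
  rw [eq_top_iff]
  intro x htop
  clear htop
  set S := span (ratField k C.η C.ζ) (⋃ n, (N n : Set (Fin r → K))) with hS
  have hK : ∀ a : K, ∀ v ∈ S, a • v ∈ S := by
    intro a v hv
    induction hv using Submodule.span_induction with
    | zero => simp
    | add u w _ _ hu hw => rw [smul_add]; exact add_mem hu hw
    | smul e u _ hu => rw [smul_comm]; exact Submodule.smul_mem _ _ hu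
    | mem u hu =>
      obtain ⟨n, hn⟩ := Set.mem_iUnion.mp hu
      have ha : a ∈ span (ratField k C.η C.ζ) (C.R C.g : Set K) := C.span_top ▸ Submodule.mem_top
      induction ha using Submodule.span_induction with
      | zero => simp
      | add p q _ _ hp hq => rw [add_smul]; exact add_mem hp hq
      | smul e p _ hp => rw [smul_assoc]; exact Submodule.smul_mem _ _ hp
      | mem p hp => exact subset_span (Set.mem_iUnion.mpr ⟨_, hN.smul_mem _ _ p hp u hn⟩)
  have hx : x ∈ span K (⋃ n, (N n : Set (Fin r → K))) := hN.span_top ▸ Submodule.mem_top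
  induction hx using Submodule.span_induction with
  | zero => simp
  | add u w _ _ hu hw => exact add_mem hu hw
  | smul a u _ hu => exact hK a u hu
  | mem u hu => exact subset_span hu

/-- A cone module has a Hilbert polynomial. -/
theorem isMod_hasPoly (C : Cone k K) {r : ℕ} {N : ℤ → Submodule k (Fin r → K)} (hN : C.IsMod N) :
    ∃ e c : ℚ, HasPoly N ((C.d * r : ℕ) : ℚ) e c ∧
      ∀ n : ℤ, ((C.d * r : ℕ) : ℚ) * ((n + 2) * (n + 1) / 2) + e * (n + 1) + c ≤
        (finrank k (N n) : ℚ) + (finrank k (dualFam C.η C.ζ N (-n)) : ℚ) := by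
  have := finiteDimensional_cone C
  have := C.sep
  rw [← finrank_pi_cone C r]
  exact exists_hasPoly C.indep (isMod_fam C hN)

/-- The Hilbert polynomial of the dual of a cone module. -/
theorem isMod_dual_hasPoly (C : Cone k K) {r : ℕ} {N : ℤ → Submodule k (Fin r → K)}
    (hN : C.IsMod N) {e c : ℚ} (hP : HasPoly N ((C.d * r : ℕ) : ℚ) e c) :
    HasPoly (dualFam C.η C.ζ N) ((C.d * r : ℕ) : ℚ) (-3 * ((C.d * r : ℕ) : ℚ) - e)
      (3 * ((C.d * r : ℕ) : ℚ) + 2 * e + c) := by
  have := finiteDimensional_cone C
  have := C.sep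
  exact dual_hasPoly C.indep (isMod_fam C hN) (fun n => (hN.reflexive n).le)
    (by rw [finrank_pi_cone]) hP

section Part

variable {η ζ : K} {r m : ℕ}

/-- A part of a family in coordinates of a subspace. -/
noncomputable def coordPart (φ : (Fin m → K) →ₗ[K] (Fin r → K))
    (N : ℤ → Submodule k (Fin r → K)) (n : ℤ) : Submodule k (Fin m → K) :=
  (N n).comap (φ.restrictScalars k)

theorem coordPart_reflexive (φ : (Fin m → K) →ₗ[K] (Fin r → K))
    [FiniteDimensional (ratField k η ζ) K] [Algebra.IsSeparable (ratField k η ζ) K]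
    {N : ℤ → Submodule k (Fin r → K)}
    (hrefl : ∀ n, dualFam η ζ (dualFam η ζ N) n ≤ N n) (n : ℤ) :
    dualFam η ζ (dualFam η ζ (coordPart φ N)) n ≤ coordPart φ N n := by
  intro v hv
  refine hrefl n ?_
  rw [mem_dualFam] at hv ⊢
  intro j w hw
  obtain ⟨w', hw'⟩ := pair_surjective (k := k) (η := η) (ζ := ζ)
    (pair (k := k) η ζ w ∘ₗ φ.restrictScalars (ratField k η ζ))
  have hmem : w' ∈ dualFam η ζ (coordPart φ N) j := mem_dualFam.mpr fun i u hu => by
    rw [hw']
    exact mem_dualFam.mp hw i (φ u) hu
  have h := hv j w' hmem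
  have hsym : ∀ (l : ℕ) (a b : Fin l → K), pair (k := k) η ζ a b = pair (k := k) η ζ b a := by
    intro l a b
    rw [pair_apply, pair_apply]
    congr 1
    exact Finset.sum_congr rfl fun i _ => mul_comm _ _
  rw [hsym, hw'] at h
  rw [hsym]
  exact h

theorem coordPart_fam (hind : AlgebraicIndependent k ![η, ζ])
    [FiniteDimensional (ratField k η ζ) K] [Algebra.IsSeparable (ratField k η ζ) K]
    (φ : (Fin m → K) →ₗ[K] (Fin r → K)) (hφ : Function.Injective φ)
    {N : ℤ → Submodule k (Fin r → K)} (hN : Fam η ζ N) : Fam η ζ (coordPart φ N) := by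
  classical
  have hmap : ∀ n, ∀ u ∈ coordPart φ N n, φ u ∈ N n := fun n u hu => hu
  have hcl : Closed η ζ (coordPart φ N) :=
    { mono := fun n u hu => hN.mono n hu
      eta := fun n u hu => by
        show φ (η • u) ∈ N (n + 1)
        rw [map_smul]; exact hN.eta n _ hu
      zeta := fun n u hu => by
        show φ (ζ • u) ∈ N (n + 1)
        rw [map_smul]; exact hN.zeta n _ hu }
  have hfd : ∀ n, FiniteDimensional k (coordPart φ N n) := by
    intro n
    have := hN.fd n
    refine Module.Finite.of_injective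
      (((φ.restrictScalars k).domRestrict (coordPart φ N n)).codRestrict (N n) fun u => u.2) ?_
    intro a b h
    exact Subtype.ext (hφ (congrArg Subtype.val h))
  obtain ⟨n₀, hn₀⟩ := hN.below
  refine ⟨hcl, hfd, ⟨n₀, fun n hn => ?_⟩, fun n u hu hu' => hN.sat n _ hu ?_, ?_, ?_⟩
  · rw [eq_bot_iff]
    intro u hu
    have := hmap n u hu
    rw [hn₀ n hn, Submodule.mem_bot] at this
    rw [Submodule.mem_bot]
    exact hφ (by rw [this, map_zero])
  · have := hmap _ _ hu'
    rwa [map_smul] at this
  · -- generation, inside the free family of the dual of `N`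
    obtain ⟨P⟩ := (hN.dual hind).exists_pres
    let val : (Fin m → K) →ₗ[k] (P.ι → K) := P.values ∘ₗ φ.restrictScalars k
    have hinj : Function.Injective val :=
      (P.values_injective (hN.dual hind)).comp hφ
    have hval : ∀ e ∈ ({η, ζ} : Set K), ∀ u, val (e • u) = e • val u := fun e he u => by
      funext i
      show ((pair (k := k) η ζ (φ (e • u)) (P.g i) : ratField k η ζ) : K) = _
      rw [map_smul]
      exact pair_smul_left (IntermediateField.subset_adjoin k _ he) _ _
    have hW : Closed η ζ fun n => (coordPart φ N n).map val :=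
      { mono := fun n => Submodule.map_mono (hcl.mono n)
        eta := fun n _ ⟨u, hu, e⟩ => ⟨η • u, hcl.eta n u hu, by rw [hval η (by simp), e]⟩
        zeta := fun n _ ⟨u, hu, e⟩ => ⟨ζ • u, hcl.zeta n u hu, by rw [hval ζ (by simp), e]⟩ }
    have hle : ∀ n, (coordPart φ N n).map val ≤
        freeFam (k := k) η ζ (fun i => 3 - P.a i) n := fun n =>
      Submodule.map_le_iff_le_comap.mpr fun u hu => P.values_mem (mem_dualFam.mpr fun j w hw => by
        have h := mem_dualFam.mp hw n (φ u) hu
        rw [pair_apply] at h ⊢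
        rw [show n + j - 3 = j + n - 3 by ring, LinearMap.coe_restrictScalars,
          show ∑ i, φ u i * w i = ∑ i, w i * φ u i from
          Finset.sum_congr rfl fun i _ => mul_comm _ _]
        exact h)
    obtain ⟨b, hb⟩ := exists_gen_of_le_free hW hle
    refine ⟨b, fun n hn => Submodule.map_injective_of_injective hinj ?_⟩
    rw [hb n hn, Submodule.map_sup, Submodule.map_sup, ← Submodule.map_comp, ← Submodule.map_comp,
      ← Submodule.map_comp, ← Submodule.map_comp]
    congr 1
    · congr 2
      exact LinearMap.ext fun u => (hval η (by simp) u).symm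
    · congr 1
      exact LinearMap.ext fun u => (hval ζ (by simp) u).symm
  · -- full rank by clearing denominators
    rw [eq_top_iff]
    intro u _
    obtain ⟨P⟩ := hN.exists_pres
    have hu : φ u ∈ span (ratField k η ζ) (Set.range P.g) := P.span_g hN ▸ Submodule.mem_top
    rw [mem_span_range_iff_exists_fun] at hu
    obtain ⟨c, hc⟩ := hu
    choose e q hq hq0 hqv using fun i : P.ι => exists_denom (k := k) (η := η) (ζ := ζ) (c i).2
    let Q : K := ∏ i, q i
    have hQ0 : Q ≠ 0 := Finset.prod_ne_zero_iff.mpr fun i _ => hq0 i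
    have hpr : ∀ t : Finset P.ι, ∏ i ∈ t, q i ∈ polySpace (k := k) η ζ (∑ i ∈ t, (e i : ℤ)) := by
      intro t
      induction t using Finset.induction_on with
      | empty => simpa using one_mem_poly le_rfl
      | insert i t hi ih =>
        rw [Finset.prod_insert hi, Finset.sum_insert hi]
        exact mul_mem_polySpace (hq i) ih
    obtain ⟨A, hA⟩ := Finite.exists_le fun i : P.ι => P.a i
    have hmem : Q • u ∈ coordPart φ N (∑ i, (e i : ℤ) + A) := by
      show φ (Q • u) ∈ N _
      rw [map_smul, ← hc, Finset.smul_sum]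
      refine sum_mem fun i _ => ?_
      rw [IntermediateField.smul_def, smul_smul]
      refine hN.mono_le ?_ (hN.toClosed.poly_smul (e := ∑ i, (e i : ℤ)) ?_ (P.g_mem i))
      · have := hA i; omega
      have h1 := mul_mem_polySpace (hqv i) (hpr (Finset.univ.erase i))
      rw [Finset.add_sum_erase _ (fun i => (e i : ℤ)) (Finset.mem_univ i)] at h1
      convert h1 using 1
      show (∏ j, q j) * (c i : K) = _
      rw [← Finset.mul_prod_erase _ _ (Finset.mem_univ i)]
      ring
    have hQ : Q ∈ ratField k η ζ := polySpace_le_ratField _ (hpr Finset.univ)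
    have hv : Q • u ∈ span (ratField k η ζ) (⋃ n, (coordPart φ N n : Set (Fin m → K))) :=
      subset_span (Set.mem_iUnion.mpr ⟨_, hmem⟩)
    have := Submodule.smul_mem _ (⟨Q, hQ⟩ : ratField k η ζ)⁻¹ hv
    convert this using 1
    show u = ((⟨Q, hQ⟩ : ratField k η ζ)⁻¹ : ratField k η ζ).1 • Q • u
    rw [smul_smul]
    simp [hQ0]

end Part

end Vale.Agent.P190.Hilb
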