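import Vale.Agent.P190.Hilb.Dual

/-! Free families, closed families, and finite generation inside a free family. -/

namespace Vale.Agent.P190.Hilb

open Submodule

variable {k K : Type} [Field k] [Field K] [Algebra k K] {η ζ : K}

/-- Multiplication by `e` on a power of `K`. -/
noncomputable abbrev smulE (k : Type) {K : Type} [Field k] [Field K] [Algebra k K] {ι : Type}
    (e : K) : (ι → K) →ₗ[k] (ι → K) := DistribSMul.toLinearMap k (ι → K) e

/-- A family closed under `x, y, z`. -/
structure Closed {ι : Type} (η ζ : K) (N : ℤ → Submodule k (ι → K)) : Prop where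
  mono : ∀ n, N n ≤ N (n + 1)
  eta : ∀ n, ∀ v ∈ N n, η • v ∈ N (n + 1)
  zeta : ∀ n, ∀ v ∈ N n, ζ • v ∈ N (n + 1)

/-- The free family with generators in the degrees `a`. -/
noncomputable def freeFam {ι : Type} (η ζ : K) (a : ι → ℤ) (n : ℤ) : Submodule k (ι → K) :=
  Submodule.pi Set.univ fun i => polySpace (k := k) η ζ (n - a i)

theorem mem_freeFam {ι : Type} {a : ι → ℤ} {n : ℤ} {v : ι → K} :
    v ∈ freeFam (k := k) η ζ a n ↔ ∀ i, v i ∈ polySpace (k := k) η ζ (n - a i) := by
  simp [freeFam, Submodule.mem_pi]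

theorem freeFam_closed {ι : Type} (a : ι → ℤ) : Closed η ζ (freeFam (k := k) η ζ a) where
  mono n v hv := mem_freeFam.mpr fun i => polySpace_mono (by omega) (mem_freeFam.mp hv i)
  eta n v hv := mem_freeFam.mpr fun i => by
    rw [show n + 1 - a i = 1 + (n - a i) by ring]
    exact mul_mem_polySpace eta_mem (mem_freeFam.mp hv i)
  zeta n v hv := mem_freeFam.mpr fun i => by
    rw [show n + 1 - a i = 1 + (n - a i) by ring]
    exact mul_mem_polySpace zeta_mem (mem_freeFam.mp hv i)

theorem dualFam_closed {ι : Type} [Fintype ι] (N : ℤ → Submodule k (ι → K)) :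
    Closed η ζ (dualFam η ζ N) where
  mono _ := dualFam_mono (by omega)
  eta _ _ hv := mul_mem_dualFam (by simp) hv
  zeta _ _ hv := mul_mem_dualFam (by simp) hv

namespace Closed

variable {ι : Type} {N : ℤ → Submodule k (ι → K)} (hN : Closed η ζ N)

include hN

theorem mono_le {m n : ℤ} (h : m ≤ n) : N m ≤ N n := by
  induction n, h using Int.leInduction with
  | base => exact le_rfl
  | succ n _ ih => exact ih.trans (hN.mono n)

theorem pow_mem (a b : ℕ) {j : ℤ} {v : ι → K} (hv : v ∈ N j) :
    (η ^ a * ζ ^ b) • v ∈ N (j + (a + b : ℕ)) := by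
  induction a with
  | zero =>
    induction b with
    | zero => simpa using hv
    | succ b ih =>
      have := hN.zeta _ _ ih
      rw [smul_smul] at this
      convert this using 2
      · push_cast; ring
      · rw [pow_succ]; ring
  | succ a ih =>
    have := hN.eta _ _ ih
    rw [smul_smul] at this
    convert this using 2
    · push_cast; ring
    · rw [pow_succ]; ring

theorem poly_smul {e j : ℤ} {c : K} {v : ι → K} (hc : c ∈ polySpace (k := k) η ζ e)
    (hv : v ∈ N j) : c • v ∈ N (j + e) := by
  induction hc using Submodule.span_induction with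
  | mem x hx =>
    obtain ⟨a, b, hab, rfl⟩ := hx
    exact hN.mono_le (by omega) (hN.pow_mem a b hv)
  | zero => simp
  | add x y _ _ hx hy => rw [add_smul]; exact add_mem hx hy
  | smul t x _ hx => rw [smul_assoc]; exact Submodule.smul_mem _ _ hx

theorem poly_smul_step {e j : ℤ} {c : K} {v : ι → K} (hc : c ∈ polySpace (k := k) η ζ e)
    (he : 1 ≤ e) (hv : v ∈ N j) :
    c • v ∈ N (j + e - 1) ⊔ (N (j + e - 1)).map (smulE k η) ⊔ (N (j + e - 1)).map (smulE k ζ) := by
  induction hc using Submodule.span_induction with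
  | mem x hx =>
    obtain ⟨a, b, hab, rfl⟩ := hx
    rcases a with _ | a
    · rcases b with _ | b
      · simpa using mem_sup_left (mem_sup_left (hN.mono_le (by omega) hv))
      · refine mem_sup_right ⟨(η ^ 0 * ζ ^ b) • v,
          hN.mono_le (by push_cast at hab ⊢; omega) (hN.pow_mem 0 b hv), ?_⟩
        rw [DistribSMul.toLinearMap_apply, smul_smul, pow_succ]; ring_nf
    · refine mem_sup_left (mem_sup_right ⟨(η ^ a * ζ ^ b) • v,
        hN.mono_le (by push_cast at hab ⊢; omega) (hN.pow_mem a b hv), ?_⟩)
      rw [DistribSMul.toLinearMap_apply, smul_smul, pow_succ]; ring_nf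
  | zero => simp
  | add x y _ _ hx hy => rw [add_smul]; exact add_mem hx hy
  | smul t x _ hx => rw [smul_assoc]; exact Submodule.smul_mem _ _ hx

theorem adjoin_le_self (n : ℤ) :
    N n ⊔ (N n).map (smulE k η) ⊔ (N n).map (smulE k ζ) ≤ N (n + 1) :=
  sup_le (sup_le (hN.mono n) (Submodule.map_le_iff_le_comap.mpr fun v hv => hN.eta n v hv))
    (Submodule.map_le_iff_le_comap.mpr fun v hv => hN.zeta n v hv)

end Closed

/-- The map `p ↦ p(T, ηT, ζT)`. -/
noncomputable def rees (η ζ : K) : MvPolynomial (Fin 3) k →ₐ[k] Polynomial K :=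
  MvPolynomial.aeval ![Polynomial.X, Polynomial.C η * Polynomial.X, Polynomial.C ζ * Polynomial.X]

theorem rees_monomial (d : Fin 3 →₀ ℕ) (c : k) :
    rees η ζ (MvPolynomial.monomial d c) =
      Polynomial.monomial (d 0 + d 1 + d 2) (c • (η ^ d 1 * ζ ^ d 2)) := by
  rw [rees, MvPolynomial.aeval_monomial, Finsupp.prod_fintype _ _ (fun _ => pow_zero _),
    Fin.prod_univ_three, ← Polynomial.C_mul_X_pow_eq_monomial, Algebra.smul_def,
    Polynomial.algebraMap_apply]
  simp [mul_pow]
  ring

theorem coeff_rees_mem (p : MvPolynomial (Fin 3) k) (e : ℕ) :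
    (rees η ζ p).coeff e ∈ polySpace (k := k) η ζ (e : ℤ) := by
  rw [p.as_sum, map_sum, Polynomial.finsetSum_coeff]
  refine sum_mem fun d _ => ?_
  rw [rees_monomial, Polynomial.coeff_monomial]
  split_ifs with h
  · exact Submodule.smul_mem _ _ (mem_polySpace_of (by omega))
  · exact zero_mem _

theorem exists_rees {e : ℕ} {c : K} (hc : c ∈ polySpace (k := k) η ζ (e : ℤ)) :
    ∃ p, rees (k := k) η ζ p = Polynomial.monomial e c := by
  induction hc using Submodule.span_induction with
  | mem x hx =>
    obtain ⟨a, b, hab, rfl⟩ := hx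
    refine ⟨MvPolynomial.monomial
      (Finsupp.single 0 (e - a - b) + Finsupp.single 1 a + Finsupp.single 2 b) 1, ?_⟩
    rw [rees_monomial]
    have hab' : a + b ≤ e := by exact_mod_cast hab
    simp only [Finsupp.add_apply, Finsupp.single_apply]
    simp [show e - a - b + a + b = e by omega]
  | zero => exact ⟨0, by simp⟩
  | add x y _ _ hx hy =>
    obtain ⟨p, hp⟩ := hx
    obtain ⟨q, hq⟩ := hy
    exact ⟨p + q, by rw [map_add, hp, hq, map_add]⟩
  | smul t x _ hx =>
    obtain ⟨p, hp⟩ := hx
    exact ⟨t • p, by rw [map_smul, hp, Polynomial.smul_monomial]⟩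

/-- A closed family inside a free family is finitely generated. -/
theorem exists_gen_of_le_free {ι : Type} [Finite ι] {a : ι → ℤ}
    {N : ℤ → Submodule k (ι → K)} (hN : Closed η ζ N)
    (hle : ∀ n, N n ≤ freeFam (k := k) η ζ a n) :
    ∃ b, ∀ n ≥ b, N (n + 1) = N n ⊔ (N n).map (smulE k η) ⊔ (N n).map (smulE k ζ) := by
  classical
  have := Fintype.ofFinite ι
  let : Module (MvPolynomial (Fin 3) k) (Polynomial K) :=
    Module.compHom _ (rees (k := k) η ζ).toRingHom
  have hsmul : ∀ (p : MvPolynomial (Fin 3) k) (f : Polynomial K), p • f = rees η ζ p * f :=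
    fun _ _ => rfl
  let emb : ℤ → (ι → K) → (ι → Polynomial K) :=
    fun n v i => Polynomial.monomial (n - a i).toNat (v i)
  let F : Submodule (MvPolynomial (Fin 3) k) (ι → Polynomial K) :=
    span _ (Set.range fun i : ι => (Pi.single i 1 : ι → Polynomial K))
  let G : ℤ → Submodule (MvPolynomial (Fin 3) k) (ι → Polynomial K) :=
    fun b => span _ {f | ∃ n ≤ b, ∃ v ∈ N n, f = emb n v}
  have hF : ∀ b, G b ≤ F := fun b => span_le.mpr fun f ⟨n, _, v, hv, hf⟩ => by
    have hp : ∀ i, ∃ p : MvPolynomial (Fin 3) k, rees η ζ p = f i := by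
      intro i
      rcases lt_or_ge (n - a i) 0 with h | h
      · refine ⟨0, ?_⟩
        have := mem_freeFam.mp (hle n hv) i
        rw [polySpace_neg h, Submodule.mem_bot] at this
        simp [hf, emb, this]
      · rw [hf]
        refine exists_rees ?_
        rw [Int.toNat_of_nonneg h]
        exact mem_freeFam.mp (hle n hv) i
    choose p hp using hp
    have : f = ∑ i, p i • (Pi.single i 1 : ι → Polynomial K) := by
      funext i
      simp only [Finset.sum_apply, Pi.smul_apply, Pi.single_apply]
      rw [Finset.sum_eq_single i (fun j _ hj => by simp [Ne.symm hj, hsmul]) (by simp)]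
      simp [hsmul, hp]
    rw [this]
    exact sum_mem fun i _ => smul_mem _ _ (subset_span ⟨i, rfl⟩)
  have hmono : Monotone G := fun b c hbc => span_mono fun f ⟨n, hn, h⟩ => ⟨n, hn.trans hbc, h⟩
  have : IsNoetherian (MvPolynomial (Fin 3) k) F :=
    isNoetherian_of_fg_of_noetherian _ (fg_span (Set.finite_range _))
  obtain ⟨b, hb⟩ := monotone_stabilizes_iff_noetherian.mpr this
    ⟨fun i : ℕ => (G i).comap F.subtype, fun i j hij => comap_mono (hmono (by omega))⟩
  refine ⟨b, fun n hn => le_antisymm (fun v hv => ?_) (hN.adjoin_le_self n)⟩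
  have hmem : emb (n + 1) v ∈ G b := by
    have h1 : emb (n + 1) v ∈ G ((n + 1).toNat : ℤ) :=
      subset_span ⟨n + 1, by omega, v, hv, rfl⟩
    have h2 := hb (n + 1).toNat (by omega)
    have h3 : (⟨emb (n + 1) v, hF _ h1⟩ : F) ∈ (G ((n + 1).toNat : ℤ)).comap F.subtype := h1
    exact h2.symm.le h3
  let T := N n ⊔ (N n).map (smulE k η) ⊔ (N n).map (smulE k ζ)
  let ex : (ι → Polynomial K) → (ι → K) :=
    fun f i => if 0 ≤ n + 1 - a i then (f i).coeff (n + 1 - a i).toNat else 0
  have key : ∀ f ∈ G b, ∀ p : MvPolynomial (Fin 3) k, ex (p • f) ∈ T := by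
    intro f hf
    induction hf using Submodule.span_induction with
    | mem f hf =>
      obtain ⟨j, hj, w, hw, rfl⟩ := hf
      intro p
      have hz : ∀ i, j - a i < 0 → w i = 0 := fun i h => by
        have := mem_freeFam.mp (hle j hw) i
        rwa [polySpace_neg h, Submodule.mem_bot] at this
      have e : ex (p • emb j w) = (rees η ζ p).coeff (n + 1 - j).toNat • w := by
        funext i
        simp only [ex, emb, Pi.smul_apply, hsmul, smul_eq_mul]
        rcases lt_or_ge (j - a i) 0 with h | h
        · simp [hz i h]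
        · rw [if_pos (by omega), show (n + 1 - a i).toNat = (n + 1 - j).toNat + (j - a i).toNat by
            omega, Polynomial.coeff_mul_monomial]
      rw [e]
      have := hN.poly_smul_step (coeff_rees_mem (k := k) (η := η) (ζ := ζ) p (n + 1 - j).toNat)
        (by omega) hw
      rw [show j + ((n + 1 - j).toNat : ℤ) - 1 = n by omega] at this
      exact this
    | zero =>
      intro p
      have : ex (p • (0 : ι → Polynomial K)) = 0 := by funext i; simp [ex]
      rw [this]; exact zero_mem _
    | add f g _ _ hf hg =>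
      intro p
      have : ex (p • (f + g)) = ex (p • f) + ex (p • g) := by
        funext i; simp only [ex, smul_add, Pi.add_apply]; split_ifs <;> simp
      rw [this]; exact add_mem (hf p) (hg p)
    | smul q f _ hf => intro p; rw [smul_smul]; exact hf _
  have := key _ hmem 1
  have e : ex ((1 : MvPolynomial (Fin 3) k) • emb (n + 1) v) = v := by
    funext i
    rw [one_smul]
    simp only [ex, emb]
    split_ifs with h
    · simp
    · have h' := mem_freeFam.mp (hle (n + 1) hv) i
      rw [polySpace_neg (by omega), Submodule.mem_bot] at h'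
      exact h'.symm
  rwa [e] at this

end Vale.Agent.P190.Hilb
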