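import Mathlib

/-! Binomial counts in three variables and third differences. -/

namespace Vale.Agent.P190.Hilb

open Submodule Module

/-- The number of monomials of degree `m` in three variables. -/
def cpos (m : ℤ) : ℕ := Nat.choose (m + 2).toNat 2

theorem cpos_of_neg {m : ℤ} (h : m < 0) : cpos m = 0 := by
  have : (m + 2).toNat < 2 := by omega
  exact Nat.choose_eq_zero_of_lt this

theorem two_mul_cpos_of_nonneg {m : ℤ} (h : 0 ≤ m) :
    2 * (cpos m : ℤ) = (m + 2) * (m + 1) := by
  obtain ⟨n, rfl⟩ := Int.eq_ofNat_of_zero_le h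
  have h2 : ((n : ℤ) + 2).toNat = n + 2 := by omega
  rw [cpos, h2]
  have : 2 * Nat.choose (n + 2) 2 = (n + 2) * (n + 1) := by
    rw [Nat.choose_two_right, Nat.mul_div_cancel']
    · congr 1
    · exact even_iff_two_dvd.mp (Nat.even_mul_pred_self _)
  exact_mod_cast this

/-- The binomial polynomial is the truncated count plus its dual. -/
theorem two_mul_cpos_add_dual (m : ℤ) :
    2 * ((cpos m : ℤ) + cpos (-m - 3)) = (m + 2) * (m + 1) := by
  rcases le_or_gt 0 m with h | h
  · rw [cpos_of_neg (m := -m - 3) (by omega)]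
    simpa using two_mul_cpos_of_nonneg h
  · rw [cpos_of_neg h]
    rcases le_or_gt 0 (-m - 3) with h' | h'
    · have := two_mul_cpos_of_nonneg h'
      push_cast
      rw [zero_add, this]
      ring
    · rw [cpos_of_neg h']
      obtain rfl | rfl : m = -1 ∨ m = -2 := by omega
      · simp
      · simp

theorem cpos_sub_pred (m : ℤ) (h : 0 ≤ m) :
    (cpos m : ℤ) - cpos (m - 1) = m + 1 := by
  have h1 := two_mul_cpos_of_nonneg h
  rcases eq_or_lt_of_le h with h0 | h0
  · subst h0
    rw [cpos_of_neg (m := 0 - 1) (by omega)]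
    simp [cpos]
  · have h2 := two_mul_cpos_of_nonneg (m := m - 1) (by omega)
    nlinarith

/-- The difference operator. -/
def dif (h : ℤ → ℤ) (n : ℤ) : ℤ := h n - h (n - 1)

theorem dif3_cpos (a n : ℤ) :
    dif (dif (dif fun j => (cpos (j - a) : ℤ))) n = if n = a then 1 else 0 := by
  have key : ∀ m : ℤ, (cpos m : ℤ) - cpos (m - 1) = if 0 ≤ m then m + 1 else 0 := by
    intro m
    split
    · exact cpos_sub_pred m ‹_›
    · rw [cpos_of_neg (by omega), cpos_of_neg (by omega)]; simp
  have k2 : ∀ j : ℤ, dif (fun j => (cpos (j - a) : ℤ)) j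
      = if 0 ≤ j - a then j - a + 1 else 0 := by
    intro j
    simp only [dif, show j - 1 - a = j - a - 1 by ring]
    exact key (j - a)
  simp only [dif] at k2 ⊢
  rw [k2 n, k2 (n - 1), k2 (n - 1 - 1)]
  split_ifs <;> omega

/-- A function vanishing below `b` is determined by its first difference. -/
theorem eq_zero_of_dif {h : ℤ → ℤ} {b : ℤ} (hb : ∀ n < b, h n = 0)
    (hd : ∀ n, dif h n = 0) (n : ℤ) : h n = 0 := by
  rcases lt_or_ge n b with hn | hn
  · exact hb n hn
  · induction n, hn using Int.le_induction with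
    | base => have := hd b; simp only [dif] at this; linarith [hb (b - 1) (by omega)]
    | succ n _ ih => have := hd (n + 1); simp only [dif, add_sub_cancel_right] at this; linarith

/-- A function with finitely supported third difference is a sum of shifted counts. -/
theorem eq_sum_cpos {h g : ℤ → ℤ} {b : ℤ} (hb : ∀ n < b, h n = 0) (S : Finset ℤ)
    (hS : ∀ n ∉ S, g n = 0) (hS' : ∀ a ∈ S, b ≤ a)
    (hd : ∀ n, dif (dif (dif h)) n = g n) (n : ℤ) :
    h n = ∑ a ∈ S, g a * cpos (n - a) := by
  set f : ℤ → ℤ := fun n => h n - ∑ a ∈ S, g a * cpos (n - a) with hf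
  have hf0 : ∀ j < b, f j = 0 := fun j hj => by
    simp only [hf, hb j hj, zero_sub, neg_eq_zero]
    refine Finset.sum_eq_zero fun a ha => ?_
    rw [cpos_of_neg (by have := hS' a ha; omega)]; simp
  have h1 : ∀ j < b, dif f j = 0 := fun j hj => by
    simp [dif, hf0 j hj, hf0 (j - 1) (by omega)]
  have h2 : ∀ j < b, dif (dif f) j = 0 := fun j hj => by
    show dif f j - dif f (j - 1) = 0
    rw [h1 j hj, h1 (j - 1) (by omega)]; simp
  have h3 : ∀ j, dif (dif (dif f)) j = 0 := by
    intro j
    have e : dif (dif (dif f)) j = dif (dif (dif h)) j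
        - ∑ a ∈ S, g a * dif (dif (dif fun i => (cpos (i - a) : ℤ))) j := by
      simp only [dif, hf, mul_sub, Finset.sum_sub_distrib]
      ring
    rw [e, hd]
    simp only [dif3_cpos, mul_ite, mul_one, mul_zero, Finset.sum_ite_eq]
    split_ifs with hj
    · simp
    · simp [hS j hj]
  have := eq_zero_of_dif hf0 (eq_zero_of_dif h1 (eq_zero_of_dif h2 h3)) n
  simp only [hf] at this
  linarith

end Vale.Agent.P190.Hilb
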