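import Vale.Agent.P190.Defs
import Vale.Agent.P190.Hilb.Count

/-! The polynomial spaces in `η, ζ`: dimensions, saturation, denominators. -/

namespace Vale.Agent.P190.Hilb

open MvPolynomial Submodule

variable {k K : Type} [Field k] [Field K] [Algebra k K] {η ζ : K}

/-- Evaluation at `η, ζ`. -/
noncomputable def ev (η ζ : K) : MvPolynomial (Fin 2) k →ₐ[k] K := aeval ![η, ζ]

theorem deg_eq (d : Fin 2 →₀ ℕ) : (d.sum fun _ e => e) = d 0 + d 1 := by
  rw [Finsupp.sum_fintype _ _ (fun _ => rfl), Fin.sum_univ_two]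

theorem ev_monomial (d : Fin 2 →₀ ℕ) (c : k) :
    ev η ζ (monomial d c) = c • (η ^ d 0 * ζ ^ d 1) := by
  rw [ev, aeval_monomial, Finsupp.prod_fintype _ _ (fun _ => pow_zero _), Fin.prod_univ_two,
    Algebra.smul_def]
  rfl

theorem polySpace_eq_map (m : ℕ) :
    polySpace (k := k) η ζ (m : ℤ) =
      (restrictTotalDegree (Fin 2) k m).map (ev η ζ).toLinearMap := by
  apply le_antisymm
  · refine Submodule.span_le.mpr ?_
    rintro _ ⟨a, b, hab, rfl⟩
    refine ⟨monomial (Finsupp.single 0 a + Finsupp.single 1 b) 1, ?_, ?_⟩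
    · rw [SetLike.mem_coe, mem_restrictTotalDegree, totalDegree_monomial _ one_ne_zero, deg_eq]
      simp only [Finsupp.add_apply, Finsupp.single_apply]
      simp
      omega
    · simp [ev_monomial]
  · rintro _ ⟨p, hp, rfl⟩
    rw [SetLike.mem_coe, mem_restrictTotalDegree] at hp
    rw [AlgHom.toLinearMap_apply, p.as_sum, map_sum]
    refine sum_mem fun d hd => ?_
    rw [ev_monomial]
    refine Submodule.smul_mem _ _ (subset_span ⟨d 0, d 1, ?_, rfl⟩)
    have := (le_totalDegree hd).trans hp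
    rw [deg_eq] at this
    exact_mod_cast this

theorem mem_polySpace {m : ℕ} {v : K} :
    v ∈ polySpace (k := k) η ζ (m : ℤ) ↔ ∃ p : MvPolynomial (Fin 2) k,
      p.totalDegree ≤ m ∧ ev η ζ p = v := by
  simp [polySpace_eq_map, mem_restrictTotalDegree]

theorem polySpace_neg {m : ℤ} (h : m < 0) : polySpace (k := k) η ζ m = ⊥ := by
  rw [polySpace, span_eq_bot]
  rintro _ ⟨a, b, hab, rfl⟩
  omega

theorem polySpace_mono {m n : ℤ} (h : m ≤ n) :
    polySpace (k := k) η ζ m ≤ polySpace (k := k) η ζ n :=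
  span_mono fun _ ⟨a, b, hab, e⟩ => ⟨a, b, hab.trans h, e⟩

theorem mem_polySpace_of {m : ℤ} {a b : ℕ} (h : ((a + b : ℕ) : ℤ) ≤ m) :
    η ^ a * ζ ^ b ∈ polySpace (k := k) η ζ m :=
  subset_span ⟨a, b, h, rfl⟩

theorem mul_mem_polySpace {m n : ℤ} {v w : K} (hv : v ∈ polySpace (k := k) η ζ m)
    (hw : w ∈ polySpace (k := k) η ζ n) : v * w ∈ polySpace (k := k) η ζ (m + n) := by
  have := Submodule.mul_mem_mul hv hw
  refine (Submodule.span_mul_span k _ _).le.trans (span_le.mpr ?_) this
  rintro _ ⟨_, ⟨a, b, h, rfl⟩, _, ⟨a', b', h', rfl⟩, rfl⟩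
  refine subset_span ⟨a + a', b + b', by push_cast at h h' ⊢; omega, ?_⟩
  ring

theorem eta_mem : η ∈ polySpace (k := k) η ζ 1 := by
  simpa using mem_polySpace_of (k := k) (η := η) (ζ := ζ) (m := 1) (a := 1) (b := 0) le_rfl

theorem zeta_mem : ζ ∈ polySpace (k := k) η ζ 1 := by
  simpa using mem_polySpace_of (k := k) (η := η) (ζ := ζ) (m := 1) (a := 0) (b := 1) le_rfl

theorem one_mem_poly {m : ℤ} (h : 0 ≤ m) : (1 : K) ∈ polySpace (k := k) η ζ m := by
  simpa using mem_polySpace_of (k := k) (η := η) (ζ := ζ) (m := m) (a := 0) (b := 0) (by simpa)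

theorem polySpace_le_ratField (m : ℤ) :
    polySpace (k := k) η ζ m ≤ (ratField k η ζ).toSubalgebra.toSubmodule := by
  refine span_le.mpr ?_
  rintro _ ⟨a, b, -, rfl⟩
  simp only [SetLike.mem_coe, Subalgebra.mem_toSubmodule, IntermediateField.mem_toSubalgebra]
  exact mul_mem (pow_mem (IntermediateField.subset_adjoin k _ (by simp)) _)
    (pow_mem (IntermediateField.subset_adjoin k _ (by simp)) _)

variable (hind : AlgebraicIndependent k ![η, ζ])

include hind

theorem ev_injective : Function.Injective (ev (k := k) η ζ) :=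
  algebraicIndependent_iff_injective_aeval.mp hind

theorem finrank_polySpace (m : ℤ) :
    Module.finrank k (polySpace (k := k) η ζ m) = cpos m := by
  rcases lt_or_ge m 0 with h | h
  · rw [polySpace_neg h, finrank_bot, cpos_of_neg h]
  · obtain ⟨n, rfl⟩ := Int.eq_ofNat_of_zero_le h
    rw [polySpace_eq_map,
      ← (Submodule.equivMapOfInjective (ev η ζ).toLinearMap (ev_injective hind) _).finrank_eq]
    rw [restrictTotalDegree, Module.finrank_eq_nat_card_basis (basisRestrictSupport k _)]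
    let e : {d : Fin 2 →₀ ℕ | (d.sum fun _ e => e) ≤ n} ≃
        Σ j : Fin (n + 1), Fin (n + 1 - j) :=
      { toFun := fun d => ⟨⟨d.1 0, by have := d.2; simp only [Set.mem_ofPred_eq, deg_eq] at this; omega⟩,
          ⟨d.1 1, by
            have h' : (d.1 0 : ℕ) + d.1 1 ≤ n := by
              have := d.2; simpa only [Set.mem_ofPred_eq, deg_eq] using this
            show d.1 1 < n + 1 - d.1 0
            omega⟩⟩
        invFun := fun s => ⟨Finsupp.single 0 (s.1 : ℕ) + Finsupp.single 1 (s.2 : ℕ), by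
          have := s.2.2
          simp [deg_eq]
          omega⟩
        left_inv := fun d => by ext i; fin_cases i <;> simp
        right_inv := by
          rintro ⟨⟨a, ha⟩, ⟨b, hb⟩⟩
          refine Sigma.ext (by simp) ((Fin.heq_ext_iff (by simp)).mpr (by simp)) }
    refine (Nat.card_congr e).trans ?_
    rw [Nat.card_sigma]
    simp only [Nat.card_eq_fintype_card, Fintype.card_fin]
    rw [Fin.sum_univ_eq_sum_range (fun j => n + 1 - j), cpos,
      show ((n : ℤ) + 2).toNat = n + 2 by omega]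
    clear e h
    induction n with
    | zero => simp
    | succ n ih =>
      rw [Finset.sum_range_succ', Nat.choose_succ_succ' (n + 2) 1, Nat.choose_one_right, ← ih]
      simp only [Nat.add_sub_add_right, Nat.sub_zero]
      omega

theorem polySpace_sat {m : ℤ} {v : K} (hv : v ∈ polySpace (k := k) η ζ (m + 1))
    (hv' : η * v ∈ polySpace (k := k) η ζ (m + 1)) : v ∈ polySpace (k := k) η ζ m := by
  rcases lt_or_ge (m + 1) 0 with h | h
  · rw [polySpace_neg h] at hv
    rw [(Submodule.mem_bot k).mp hv]; exact zero_mem _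
  obtain ⟨n, hn⟩ := Int.eq_ofNat_of_zero_le h
  rw [hn] at hv hv'
  obtain ⟨p, hp, rfl⟩ := mem_polySpace.mp hv
  obtain ⟨q, hq, hqe⟩ := mem_polySpace.mp hv'
  have hqp : q = X 0 * p := ev_injective hind (by rw [hqe]; simp [ev])
  subst hqp
  rcases eq_or_ne p 0 with rfl | hp0
  · simp
  rw [totalDegree_mul_of_isDomain (X_ne_zero 0) hp0, totalDegree_X] at hq
  have : m = ((n - 1 : ℕ) : ℤ) := by omega
  rw [this]
  exact mem_polySpace.mpr ⟨p, by omega, rfl⟩

/-- The top degree step: `z` is regular modulo `x, y`. -/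
theorem polySpace_top {m : ℤ} {v a b : K} (hv : v ∈ polySpace (k := k) η ζ m)
    (ha : a ∈ polySpace (k := k) η ζ m) (hb : b ∈ polySpace (k := k) η ζ m)
    (h : ζ * v = a + η * b) :
    v ∈ polySpace (k := k) η ζ (m - 1) ⊔
      (polySpace (k := k) η ζ (m - 1)).map (LinearMap.mulLeft k η) := by
  rcases lt_or_ge m 0 with hm | hm
  · rw [polySpace_neg hm] at hv
    rw [(Submodule.mem_bot k).mp hv]; exact zero_mem _
  obtain ⟨n, rfl⟩ := Int.eq_ofNat_of_zero_le hm
  obtain ⟨p, hp, rfl⟩ := mem_polySpace.mp hv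
  obtain ⟨a, ha', rfl⟩ := mem_polySpace.mp ha
  obtain ⟨b, hb', rfl⟩ := mem_polySpace.mp hb
  have e : X 1 * p = a + X 0 * b := ev_injective hind (by simpa [ev] using h)
  rw [p.as_sum, map_sum]
  refine sum_mem fun d hd => ?_
  rw [ev_monomial]
  refine Submodule.smul_mem _ _ ?_
  have hdn : d 0 + d 1 ≤ n := by have := (le_totalDegree hd).trans hp; rwa [deg_eq] at this
  by_cases h0 : d 0 = 0
  · have hlt : d 1 < n := by
      by_contra hge
      have hdn' : d 1 = n := by omega
      have hc := congrArg (coeff (Finsupp.single 1 1 + d)) e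
      rw [coeff_X_mul, coeff_add] at hc
      have ha0 : coeff (Finsupp.single 1 1 + d) a = 0 := by
        apply coeff_eq_zero_of_totalDegree_lt
        refine lt_of_le_of_lt ha' ?_
        set e1 : Fin 2 →₀ ℕ := Finsupp.single 1 1 + d with he1
        show n < ∑ i ∈ e1.support, e1 i
        have := deg_eq e1
        rw [Finsupp.sum] at this
        rw [this]
        simp only [he1, Finsupp.add_apply, Finsupp.single_apply]
        simp
        omega
      have hb0 : coeff (Finsupp.single 1 1 + d) (X 0 * b) = 0 := by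
        rw [coeff_X_mul', if_neg]
        simp [h0]
      rw [ha0, hb0, add_zero] at hc
      exact (mem_support_iff.mp hd) hc
    exact mem_sup_left (mem_polySpace_of (by omega))
  · refine mem_sup_right ⟨η ^ (d 0 - 1) * ζ ^ d 1, mem_polySpace_of (by omega), ?_⟩
    obtain ⟨c, hc⟩ := Nat.exists_eq_add_of_le (Nat.one_le_iff_ne_zero.mpr h0)
    simp [hc, pow_add, mul_assoc]

omit hind in
theorem exists_denom {e : K} (he : e ∈ ratField k η ζ) :
    ∃ n : ℕ, ∃ q ∈ polySpace (k := k) η ζ n, q ≠ 0 ∧ q * e ∈ polySpace (k := k) η ζ n := by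
  have hs : ({η, ζ} : Set K) = Set.range ![η, ζ] := by ext; simp [eq_comm, or_comm]
  rw [ratField, hs, IntermediateField.mem_adjoin_range_iff] at he
  obtain ⟨p, q, rfl⟩ := he
  by_cases hq : ev η ζ q = 0
  · refine ⟨0, 1, one_mem_poly le_rfl, one_ne_zero, ?_⟩
    simp only [ev] at hq
    simp [hq]
  · refine ⟨max p.totalDegree q.totalDegree, ev η ζ q,
      mem_polySpace.mpr ⟨q, le_max_right _ _, rfl⟩, hq, ?_⟩
    rw [show ev η ζ q * (aeval ![η, ζ] p / aeval ![η, ζ] q) = ev η ζ p by
      simp only [ev] at hq ⊢; field_simp]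
    exact mem_polySpace.mpr ⟨p, le_max_left _ _, rfl⟩

end Vale.Agent.P190.Hilb
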