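import Vale.Agent.P190.Hilb.Duality

/-! A family with a polynomial Hilbert function from `n₁` on and no dual below `n₂` is generated in
degree at most `max (n₁ + 2) (3 - n₂)`. -/

namespace Vale.Agent.P190.Hilb

open Submodule Module Filter

variable {k K : Type} [Field k] [Field K] [Algebra k K] {η ζ : K} {r : ℕ}

theorem exists_const_of_mem {v : K} (hv : v ∈ polySpace (k := k) η ζ 0) :
    ∃ c : k, algebraMap k K c = v := by
  induction hv using Submodule.span_induction with
  | mem x hx =>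
    obtain ⟨a, b, hab, rfl⟩ := hx
    obtain ⟨rfl, rfl⟩ : a = 0 ∧ b = 0 := by omega
    exact ⟨1, by simp⟩
  | zero => exact ⟨0, by simp⟩
  | add x y _ _ hx hy =>
    obtain ⟨c, rfl⟩ := hx
    obtain ⟨d, rfl⟩ := hy
    exact ⟨c + d, map_add _ c d⟩
  | smul t x _ hx =>
    obtain ⟨c, rfl⟩ := hx
    exact ⟨t * c, by rw [map_mul, Algebra.smul_def]⟩

theorem algebraMap_mem_polySpace (c : k) : algebraMap k K c ∈ polySpace (k := k) η ζ 0 := by
  rw [Algebra.algebraMap_eq_smul_one]
  exact Submodule.smul_mem _ c (one_mem_poly le_rfl)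

variable (hind : AlgebraicIndependent k ![η, ζ]) [FiniteDimensional (ratField k η ζ) K]
  [Algebra.IsSeparable (ratField k η ζ) K]

include hind

/-- A bound on the degrees of generators. -/
theorem gen_bound {N : ℤ → Submodule k (Fin r → K)} (hN : Fam η ζ N) {n₁ n₂ : ℤ} {D e c : ℚ}
    (hP : ∀ n ≥ n₁, (finrank k (N n) : ℚ)
      = D * (((n : ℚ) + 2) * ((n : ℚ) + 1) / 2) + e * ((n : ℚ) + 1) + c)
    (hlow : ∀ n < n₂, dualFam η ζ N n = ⊥) (n : ℤ) (hn : max (n₁ + 2) (3 - n₂) ≤ n) :
    N (n + 1) = N n ⊔ (N n).map (smulE k η) ⊔ (N n).map (smulE k ζ) := by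
  classical
  obtain ⟨P⟩ := hN.exists_pres
  obtain ⟨σ, _, b, v, hv, hexp, hker⟩ := exists_res hind hN P
  have hn1 : n₁ + 2 ≤ n := le_trans (le_max_left _ _) hn
  have hn2 : 3 - n₂ ≤ n := le_trans (le_max_right _ _) hn
  -- the two polynomials agree
  set A : ℚ := ((Fintype.card P.ι : ℚ) - Fintype.card σ) / 2 with hA
  set B : ℚ := ∑ i, ((3 - 2 * (P.a i : ℚ)) / 2) - ∑ l, ((3 - 2 * (b l : ℚ)) / 2) with hB
  set C : ℚ := ∑ i, tpoly (-(P.a i : ℚ)) - ∑ l, tpoly (-(b l : ℚ)) with hC
  have hF : ∀ x : ℚ, ∑ i, tpoly (x - P.a i) - ∑ l, tpoly (x - b l) = A * x ^ 2 + B * x + C := by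
    intro x
    have key : ∀ q : ℚ, tpoly (x - q) = x ^ 2 / 2 + (3 - 2 * q) / 2 * x + tpoly (-q) := fun q => by
      simp only [tpoly]; ring
    simp only [key, Finset.sum_add_distrib, Finset.sum_const, Finset.card_univ, nsmul_eq_mul,
      ← Finset.sum_mul, hA, hB, hC]
    ring
  obtain ⟨M, hM⟩ : ∃ M : ℤ, n₁ ≤ M ∧ (∀ i, P.a i ≤ M) ∧ ∀ l, b l ≤ M := by
    obtain ⟨M1, hM1⟩ := Finite.exists_le fun i : P.ι => P.a i
    obtain ⟨M2, hM2⟩ := Finite.exists_le b
    exact ⟨max n₁ (max M1 M2), le_max_left _ _, fun i => le_trans (hM1 i) (by omega),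
      fun l => le_trans (hM2 l) (by omega)⟩
  have hbig : ∀ x : ℤ, M ≤ x → A * (x : ℚ) ^ 2 + B * x + C
      = D * (((x : ℚ) + 2) * ((x : ℚ) + 1) / 2) + e * ((x : ℚ) + 1) + c := by
    intro x hx
    rw [← hP x (by omega), ← hF]
    have h := congrArg (fun z : ℤ => (z : ℚ)) (hexp x)
    push_cast at h
    rw [h]
    congr 1 <;> refine Finset.sum_congr rfl fun i _ => ?_
    · have := hM.2.1 i
      rw [← Int.cast_sub, tpoly_eq, cpos_of_neg (show -(x - P.a i) - 3 < 0 by omega)]
      simp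
    · have := hM.2.2 i
      rw [← Int.cast_sub, tpoly_eq, cpos_of_neg (show -(x - b i) - 3 < 0 by omega)]
      simp
  have hall : ∀ x : ℤ, A * (x : ℚ) ^ 2 + B * x + C
      = D * (((x : ℚ) + 2) * ((x : ℚ) + 1) / 2) + e * ((x : ℚ) + 1) + c := by
    intro x
    have h0 := hbig M le_rfl
    have h1 := hbig (M + 1) (by omega)
    have h2 := hbig (M + 2) (by omega)
    push_cast at h1 h2
    linear_combination ((x : ℚ) - M - 1) * ((x : ℚ) - M - 2) / 2 * h0
      - ((x : ℚ) - M) * ((x : ℚ) - M - 2) * h1 + ((x : ℚ) - M) * ((x : ℚ) - M - 1) / 2 * h2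
  -- the transpose is bijective in low degrees
  let aL : P.ι → ℤ := fun i => 3 - P.a i
  let aK : σ → ℤ := fun l => 3 - b l
  have hdims : ∀ m ≤ -n₁, finrank k (freeFam (k := k) η ζ aL m)
      = finrank k (freeFam (k := k) η ζ aK m) := by
    intro m hm
    rw [finrank_freeFam hind, finrank_freeFam hind]
    have h := hP (-m) (by omega)
    rw [← hall, ← hF] at h
    have h' := congrArg (fun z : ℤ => (z : ℚ)) (hexp (-m))
    push_cast at h'
    have e1 : ∀ q : ℤ, tpoly (((-m : ℤ) : ℚ) - q) = (cpos (-m - q) : ℚ) + cpos (m - (3 - q)) :=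
      fun q => by
        rw [← Int.cast_sub, tpoly_eq, show -(-m - q) - 3 = m - (3 - q) by ring]
    simp only [e1, Finset.sum_add_distrib] at h
    have hq : ((∑ i, cpos (m - (3 - P.a i)) : ℕ) : ℚ) = ((∑ l, cpos (m - (3 - b l)) : ℕ) : ℚ) := by
      push_cast
      linarith
    exact_mod_cast hq
  let Ψ : (P.ι → K) →ₗ[k] (σ → K) := LinearMap.pi fun l => dotMap0 k (v l)
  have hΨ : ∀ u l, Ψ u l = ∑ i, u i * v l i := fun u l => dotMap0_apply (k := k) (v l) u
  have hinj : ∀ m < n₂, ∀ u ∈ freeFam (k := k) η ζ aL m, Ψ u = 0 → u = 0 := by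
    intro m hm u hu h0
    obtain ⟨w, hw, rfl⟩ := hker m u hu fun l => by rw [← hΨ, h0]; rfl
    rw [hlow m hm, SetLike.mem_coe, Submodule.mem_bot] at hw
    rw [hw, map_zero]
  have hsurj : ∀ m, m ≤ -n₁ → m < n₂ →
      (freeFam (k := k) η ζ aL m).map Ψ = freeFam (k := k) η ζ aK m := by
    intro m h1 h2
    have := fd_freeFam (k := k) (η := η) (ζ := ζ) aL m
    have := fd_freeFam (k := k) (η := η) (ζ := ζ) aK m
    refine Submodule.eq_of_le_of_finrank_le
      (Submodule.map_le_iff_le_comap.mpr fun u hu => mem_freeFam.mpr fun l =>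
        dual_value_mem hu (hv l).1) ?_
    rw [← hdims m h1]
    have h3 := finrank_map_add_ker Ψ (freeFam (k := k) η ζ aL m)
    have h4 : (LinearMap.ker Ψ ⊓ freeFam (k := k) η ζ aL m : Submodule k (P.ι → K)) = ⊥ :=
      eq_bot_iff.mpr fun u hu => (Submodule.mem_bot k).mpr (hinj m h2 u hu.2 hu.1)
    rw [h4, finrank_bot] at h3
    omega
  -- generators in degree `n + 1` are redundant
  set U := N n ⊔ (N n).map (smulE k η) ⊔ (N n).map (smulE k ζ) with hU
  have hstep : ∀ i, P.a i ≤ n → ∀ q ∈ polySpace (k := k) η ζ (n + 1 - P.a i), q • P.g i ∈ U := by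
    intro i hi q hq
    have := hN.toClosed.poly_smul_step hq (by omega) (P.g_mem i)
    rwa [show P.a i + (n + 1 - P.a i) - 1 = n by ring] at this
  refine le_antisymm ?_ (hN.toClosed.adjoin_le_self n)
  suffices hgen : ∀ i, P.a i = n + 1 → P.g i ∈ U by
    rw [← P.img]
    rintro _ ⟨u, hu, rfl⟩
    rw [comb_apply]
    refine sum_mem fun i _ => ?_
    have h := mem_freeFam.mp hu i
    rcases lt_trichotomy (P.a i) (n + 1) with hi | hi | hi
    · exact hstep i (by omega) _ h
    · rw [show n + 1 - P.a i = 0 by omega] at h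
      obtain ⟨t, ht⟩ := exists_const_of_mem h
      rw [← ht, algebraMap_smul]
      exact Submodule.smul_mem _ t (hgen i hi)
    · rw [polySpace_neg (by omega), Submodule.mem_bot] at h
      rw [h, zero_smul]
      exact zero_mem _
  by_contra hcon
  push Not at hcon
  obtain ⟨i₀, hi₀, hg₀⟩ := hcon
  obtain ⟨φ, hφ₀, hφU⟩ := Submodule.exists_dual_map_eq_bot_of_notMem hg₀ inferInstance
  have hφU' : ∀ x ∈ U, φ x = 0 := fun x hx => by
    have h : φ x ∈ U.map φ := Submodule.mem_map_of_mem hx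
    rwa [hφU, Submodule.mem_bot] at h
  let u₀ : P.ι → K := fun i => if P.a i = n + 1 then algebraMap k K (φ (P.g i)) else 0
  set m : ℤ := 2 - n with hm
  have hu₀ : u₀ ∈ freeFam (k := k) η ζ aL m := by
    refine mem_freeFam.mpr fun i => ?_
    simp only [u₀]
    split_ifs with h
    · rw [show m - aL i = 0 by simp only [aL, hm]; omega]
      exact algebraMap_mem_polySpace _
    · exact zero_mem _
  let ψ : σ → K := fun l => Ψ u₀ l
  have hψmem : ∀ l, ψ l ∈ polySpace (k := k) η ζ (b l - n - 1) := fun l => by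
    have := dual_value_mem (a := P.a) hu₀ (hv l).1
    rwa [show m - (3 - b l) = b l - n - 1 by simp only [hm]; ring] at this
  have hψ0 : ∀ l, b l ≤ n + 1 → ψ l = 0 := by
    intro l hl
    rcases hl.lt_or_eq with hl' | hl'
    · have := hψmem l
      rwa [polySpace_neg (by omega), Submodule.mem_bot] at this
    have hc : ∀ i, ∃ t : k, (P.a i = n + 1 → algebraMap k K t = v l i) := fun i => by
      by_cases h : P.a i = n + 1
      · have h' := mem_freeFam.mp (hv l).1 i
        rw [show b l - P.a i = 0 by omega] at h'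
        obtain ⟨t, ht⟩ := exists_const_of_mem h'
        exact ⟨t, fun _ => ht⟩
      · exact ⟨0, fun h' => absurd h' h⟩
    choose t ht using hc
    have h0 := congrArg φ (hv l).2
    rw [comb_apply, map_sum, map_zero] at h0
    have h1 : ∀ i, φ (v l i • P.g i) = if P.a i = n + 1 then t i * φ (P.g i) else 0 := by
      intro i
      split_ifs with h
      · rw [← ht i h, algebraMap_smul, map_smul, smul_eq_mul]
      · have h' := mem_freeFam.mp (hv l).1 i
        rcases lt_or_ge (P.a i) (n + 1) with h2 | h2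
        · exact hφU' _ (hstep i (by omega) _ (by rwa [← hl']))
        · rw [polySpace_neg (by omega), Submodule.mem_bot] at h'
          rw [h', zero_smul, map_zero]
    simp only [h1] at h0
    have : ψ l = algebraMap k K (∑ i, if P.a i = n + 1 then t i * φ (P.g i) else 0) := by
      simp only [ψ, hΨ, map_sum, u₀]
      refine Finset.sum_congr rfl fun i _ => ?_
      split_ifs with h
      · rw [← ht i h, map_mul, mul_comm]
      · rw [zero_mul, map_zero]
    rw [this, h0, map_zero]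
  have hlift : ∀ l, ∃ w ∈ freeFam (k := k) η ζ aL (3 - b l),
      (∀ i, P.a i = n + 1 → w i = 0) ∧ ψ l • Ψ w = ψ l • (Pi.single l 1 : σ → K) := by
    intro l
    rcases le_or_gt (b l) (n + 1) with hl | hl
    · exact ⟨0, zero_mem _, fun _ _ => rfl, by rw [hψ0 l hl, zero_smul, zero_smul]⟩
    have hδ : (Pi.single l 1 : σ → K) ∈ freeFam (k := k) η ζ aK (3 - b l) := by
      refine mem_freeFam.mpr fun l' => ?_
      rcases eq_or_ne l' l with rfl | h
      · simpa using one_mem_poly (k := k) (η := η) (ζ := ζ)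
          (show (0 : ℤ) ≤ 3 - b l' - aK l' by simp [aK])
      · simp [h]
    rw [← hsurj _ (by omega) (by omega)] at hδ
    obtain ⟨w, hw, hwe⟩ := hδ
    refine ⟨w, hw, fun i hi => ?_, by rw [hwe]⟩
    have h := mem_freeFam.mp hw i
    rwa [polySpace_neg (by simp only [aL]; omega), Submodule.mem_bot] at h
  choose w hw hw0 hwe using hlift
  let u : P.ι → K := u₀ - ∑ l, ψ l • w l
  have hu : u ∈ freeFam (k := k) η ζ aL m := by
    refine sub_mem hu₀ (sum_mem fun l _ => ?_)
    have := (freeFam_closed (k := k) (η := η) (ζ := ζ) aL).poly_smul (hψmem l) (hw l)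
    rwa [show 3 - b l + (b l - n - 1) = m by simp only [hm]; ring] at this
  have hΨsmul : ∀ (q : K) (x : P.ι → K), Ψ (q • x) = q • Ψ x := fun q x => funext fun l => by
    simp only [Pi.smul_apply, smul_eq_mul, hΨ, Finset.mul_sum]
    exact Finset.sum_congr rfl fun i _ => by rw [mul_assoc]
  have hu0 : Ψ u = 0 := by
    simp only [u, map_sub, map_sum, hΨsmul, hwe]
    rw [sub_eq_zero]
    funext l'
    simp only [Finset.sum_apply, Pi.smul_apply, Pi.single_apply, smul_eq_mul, mul_ite, mul_one,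
      mul_zero, Finset.sum_ite_eq, Finset.mem_univ, if_true]
    rfl
  have h := congrFun (hinj m (by omega) u hu hu0) i₀
  simp only [u, u₀, Pi.sub_apply, Finset.sum_apply, Pi.smul_apply, hw0 _ i₀ hi₀, smul_zero,
    Finset.sum_const_zero, sub_zero, if_pos hi₀, Pi.zero_apply] at h
  exact hφ₀ ((algebraMap k K).injective (h.trans (map_zero _).symm))

end Vale.Agent.P190.Hilb
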