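import Vale.Agent.P190.Hilb.Count

/-! Dimension recursion for a degree-one operator which is injective modulo a subfamily. -/

namespace Vale.Agent.P190.Hilb

open Submodule Module

variable {k M : Type*} [Field k] [AddCommGroup M] [Module k M]

/-- The dimension of `V n / U n`, as an integer. -/
noncomputable def qdim (V U : ℤ → Submodule k M) (n : ℤ) : ℤ :=
  (finrank k (V n) : ℤ) - finrank k (U n)

theorem qdim_nonneg {V U : ℤ → Submodule k M} (hUV : ∀ n, U n ≤ V n)
    [∀ n, FiniteDimensional k (V n)] (n : ℤ) : 0 ≤ qdim V U n := by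
  have := Submodule.finrank_mono (hUV n)
  simp only [qdim]; omega

/-- The family `U n + X (V (n-1))`. -/
def adjoin (X : M →ₗ[k] M) (V U : ℤ → Submodule k M) (n : ℤ) : Submodule k M :=
  U n ⊔ (V (n - 1)).map X

theorem adjoin_le {X : M →ₗ[k] M} {V U : ℤ → Submodule k M} (hUV : ∀ n, U n ≤ V n)
    (hX : ∀ n, (V (n - 1)).map X ≤ V n) (n : ℤ) : adjoin X V U n ≤ V n :=
  sup_le (hUV n) (hX n)

theorem finrank_map_add_ker {M' : Type*} [AddCommGroup M'] [Module k M'] (X : M →ₗ[k] M') (S : Submodule k M) [FiniteDimensional k S] :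
    finrank k (S.map X) + finrank k (LinearMap.ker X ⊓ S : Submodule k M) = finrank k S := by
  have h := LinearMap.finrank_range_add_finrank_ker (X.domRestrict S)
  rw [LinearMap.range_domRestrict] at h
  have e : finrank k (LinearMap.ker (X.domRestrict S))
      = finrank k (LinearMap.ker X ⊓ S : Submodule k M) := by
    rw [LinearMap.ker_domRestrict]
    have := (Submodule.comapSubtypeEquivOfLe (p := LinearMap.ker X ⊓ S) (q := S) inf_le_right).finrank_eq
    rw [← this, Submodule.comap_inf, Submodule.comap_subtype_self, inf_top_eq]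
  omega

/-- If `X` maps `U` into `U` and is injective modulo `U`, then the quotient dimensions differ by
one difference. -/
theorem qdim_adjoin {X : M →ₗ[k] M} {V U : ℤ → Submodule k M}
    [∀ n, FiniteDimensional k (V n)] (hUV : ∀ n, U n ≤ V n)
    (hXU : ∀ n, (U (n - 1)).map X ≤ U n)
    (hinj : ∀ n, ∀ v ∈ V (n - 1), X v ∈ U n → v ∈ U (n - 1)) (n : ℤ) :
    qdim V (adjoin X V U) n = dif (qdim V U) n := by
  have : FiniteDimensional k (U (n - 1)) := Submodule.finiteDimensional_of_le (hUV _)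
  have : FiniteDimensional k (U n) := Submodule.finiteDimensional_of_le (hUV _)
  have hinf : U n ⊓ (V (n - 1)).map X = (U (n - 1)).map X := by
    apply le_antisymm
    · rintro x ⟨hx, v, hv, rfl⟩
      exact ⟨v, hinj n v hv hx, rfl⟩
    · exact le_inf (hXU n) (Submodule.map_mono (hUV _))
  have hker : (LinearMap.ker X ⊓ V (n - 1) : Submodule k M) = LinearMap.ker X ⊓ U (n - 1) := by
    apply le_antisymm
    · rintro x ⟨hx, hv⟩
      refine ⟨hx, hinj n x hv ?_⟩
      rw [LinearMap.mem_ker.mp hx]; exact zero_mem _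
    · exact inf_le_inf_left _ (hUV _)
  have h1 : finrank k (U n ⊔ (V (n - 1)).map X : Submodule k M)
      + finrank k ((U (n - 1)).map X)
      = finrank k (U n) + finrank k ((V (n - 1)).map X) := by
    rw [← hinf]; exact Submodule.finrank_sup_add_finrank_inf_eq _ _
  have h2 := finrank_map_add_ker X (V (n - 1))
  have h3 := finrank_map_add_ker X (U (n - 1))
  rw [hker] at h2
  have hf : finrank k (adjoin X V U n)
      = finrank k (U n ⊔ (V (n - 1)).map X : Submodule k M) := rfl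
  simp only [qdim, dif]
  omega

/-- The three nested families `0`, `xV`, `xV + yV`, `xV + yV + zV`. -/
def U0 : ℤ → Submodule k M := fun _ => ⊥

/-- Three operators form a regular sequence on `V` in every degree. -/
structure Regular3 (X : Fin 3 → M →ₗ[k] M) (V : ℤ → Submodule k M) : Prop where
  r0 : ∀ n, ∀ v ∈ V (n - 1), X 0 v ∈ (U0 n : Submodule k M) → v ∈ (U0 (n - 1) : Submodule k M)
  r1 : ∀ n, ∀ v ∈ V (n - 1), X 1 v ∈ adjoin (X 0) V U0 n → v ∈ adjoin (X 0) V U0 (n - 1)
  r2 : ∀ n, ∀ v ∈ V (n - 1), X 2 v ∈ adjoin (X 1) V (adjoin (X 0) V U0) n →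
    v ∈ adjoin (X 1) V (adjoin (X 0) V U0) (n - 1)

/-- The space of `V n` modulo all three operators. -/
def topPart (X : Fin 3 → M →ₗ[k] M) (V : ℤ → Submodule k M) : ℤ → Submodule k M :=
  adjoin (X 2) V (adjoin (X 1) V (adjoin (X 0) V U0))

theorem map_adjoin_le {Y X : M →ₗ[k] M} {V U : ℤ → Submodule k M}
    (hc : Y ∘ₗ X = X ∘ₗ Y) (hYV : ∀ n, (V (n - 1)).map Y ≤ V n)
    (hYU : ∀ n, (U (n - 1)).map Y ≤ U n) (n : ℤ) :
    (adjoin X V U (n - 1)).map Y ≤ adjoin X V U n := by
  rw [adjoin, Submodule.map_sup, ← Submodule.map_comp, hc, Submodule.map_comp]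
  exact sup_le_sup (hYU n) (Submodule.map_mono (hYV (n - 1)))

theorem dif3_finrank {X : Fin 3 → M →ₗ[k] M} {V : ℤ → Submodule k M}
    [∀ n, FiniteDimensional k (V n)] (hX : ∀ i n, (V (n - 1)).map (X i) ≤ V n)
    (hc : ∀ i j, X i ∘ₗ X j = X j ∘ₗ X i) (hr : Regular3 X V) (n : ℤ) :
    dif (dif (dif fun j => (finrank k (V j) : ℤ))) n = qdim V (topPart X V) n := by
  have h00 : ∀ n, (U0 n : Submodule k M) ≤ V n := fun _ => bot_le
  have hu : ∀ i n, ((U0 (n - 1) : Submodule k M)).map (X i) ≤ U0 n := fun i n => by simp [U0]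
  have e1 : ∀ n, qdim V (adjoin (X 0) V U0) n = dif (fun j => (finrank k (V j) : ℤ)) n := by
    intro n
    rw [qdim_adjoin h00 (hu 0) hr.r0 n]
    have hb : ∀ j, finrank k (U0 j : Submodule k M) = 0 := fun _ => finrank_bot k M
    have := hb n
    have := hb (n - 1)
    simp only [qdim, dif]
    omega
  have h10 : ∀ n, adjoin (X 0) V U0 n ≤ V n := adjoin_le h00 (hX 0)
  have hm1 : ∀ i n, (adjoin (X 0) V U0 (n - 1)).map (X i) ≤ adjoin (X 0) V U0 n := fun i n =>
    map_adjoin_le (hc i 0) (hX i) (hu i) n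
  have e2 : ∀ n, qdim V (adjoin (X 1) V (adjoin (X 0) V U0)) n
      = dif (dif fun j => (finrank k (V j) : ℤ)) n := by
    intro n
    rw [qdim_adjoin h10 (hm1 1) hr.r1 n]
    simp only [dif, e1]
  have h20 := adjoin_le (V := V) h10 (hX 1)
  rw [topPart, qdim_adjoin h20 (fun n => map_adjoin_le (hc 2 1) (hX 2) (hm1 2) n) hr.r2 n]
  simp only [dif, e2]

/-- A regular graded piece whose top part vanishes outside `S` has the binomial Hilbert function. -/
theorem finrank_eq_sum_cpos {X : Fin 3 → M →ₗ[k] M} {V : ℤ → Submodule k M}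
    [∀ n, FiniteDimensional k (V n)] (hX : ∀ i n, (V (n - 1)).map (X i) ≤ V n)
    (hc : ∀ i j, X i ∘ₗ X j = X j ∘ₗ X i) (hr : Regular3 X V) {b : ℤ}
    (hb : ∀ n < b, V n = ⊥) (S : Finset ℤ) (hS : ∀ n ∉ S, topPart X V n = V n)
    (hS' : ∀ a ∈ S, b ≤ a) (n : ℤ) :
    (finrank k (V n) : ℤ) = ∑ a ∈ S, qdim V (topPart X V) a * cpos (n - a) := by
  refine eq_sum_cpos (b := b) (fun j hj => ?_) S (fun j hj => ?_) hS' (dif3_finrank hX hc hr) n
  · rw [hb j hj]; simp
  · rw [qdim, hS j hj, sub_self]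

end Vale.Agent.P190.Hilb
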