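import Vale.Agent.P190.Hilb.Present
import Vale.Agent.P190.Hilb.Step

/-! Hilbert polynomials of families and the bound `P_N(n) ≤ dim N n + dim dual(-n)`. -/

namespace Vale.Agent.P190.Hilb

open Submodule Module Filter

variable {k K : Type} [Field k] [Field K] [Algebra k K] {η ζ : K}

theorem fd_polySpace (m : ℤ) : FiniteDimensional k (polySpace (k := k) η ζ m) := by
  rcases lt_or_ge m 0 with h | h
  · rw [polySpace_neg h]; infer_instance
  · obtain ⟨l, rfl⟩ := Int.eq_ofNat_of_zero_le h
    rw [polySpace_eq_map]; infer_instance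

/-- A free family as a product. -/
noncomputable def freeFamEquiv {ι : Type} (a : ι → ℤ) (n : ℤ) :
    freeFam (k := k) η ζ a n ≃ₗ[k] ∀ i, polySpace (k := k) η ζ (n - a i) where
  toFun f i := ⟨f.1 i, mem_freeFam.mp f.2 i⟩
  invFun f := ⟨fun i => f i, mem_freeFam.mpr fun i => (f i).2⟩
  map_add' _ _ := rfl
  map_smul' _ _ := rfl

theorem fd_freeFam {ι : Type} [Finite ι] (a : ι → ℤ) (n : ℤ) :
    FiniteDimensional k (freeFam (k := k) η ζ a n) := by
  have := fun i => fd_polySpace (k := k) (η := η) (ζ := ζ) (n - a i)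
  exact Module.Finite.equiv (freeFamEquiv a n).symm

theorem finrank_freeFam (hind : AlgebraicIndependent k ![η, ζ]) {ι : Type} [Fintype ι]
    (a : ι → ℤ) (n : ℤ) :
    finrank k (freeFam (k := k) η ζ a n) = ∑ i, cpos (n - a i) := by
  have := fun i => fd_polySpace (k := k) (η := η) (ζ := ζ) (n - a i)
  rw [(freeFamEquiv a n).finrank_eq, Module.finrank_pi_fintype]
  simp only [finrank_polySpace hind]

/-- The binomial polynomial. -/
def tpoly (n : ℚ) : ℚ := (n + 2) * (n + 1) / 2

theorem tpoly_eq (m : ℤ) : tpoly (m : ℚ) = (cpos m : ℚ) + (cpos (-m - 3) : ℚ) := by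
  have h := congrArg (fun z : ℤ => (z : ℚ)) (two_mul_cpos_add_dual m)
  simp only [tpoly]
  push_cast at h
  linarith

variable (hind : AlgebraicIndependent k ![η, ζ])

include hind

theorem regular3_kernel {r : ℕ} {N : ℤ → Submodule k (Fin r → K)} (hN : Fam η ζ N)
    (P : Pres η ζ N) :
    Regular3 ![LinearMap.id, smulE k η, smulE k ζ]
      (fun n => freeFam (k := k) η ζ P.a n ⊓ LinearMap.ker (comb k P.g)) where
  r0 n v _ h := by simpa [U0] using h
  r1 n v hv h := by
    simp only [adjoin, U0, bot_sup_eq, Matrix.cons_val_zero, Matrix.cons_val_one,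
      Submodule.map_id] at h ⊢
    refine ⟨mem_freeFam.mpr fun i => ?_, hv.2⟩
    have h1 := mem_freeFam.mp hv.1 i
    have h2 := mem_freeFam.mp h.1 i
    rw [show n - 1 - P.a i = n - 1 - 1 - P.a i + 1 by ring] at h1 h2
    exact polySpace_sat hind h1 h2
  r2 n v hv h := by
    simp only [adjoin, U0, bot_sup_eq, Submodule.map_id, Matrix.cons_val_zero,
      Matrix.cons_val_one, Matrix.cons_val] at h ⊢
    obtain ⟨a, ha, _, ⟨b, hb, rfl⟩, hab⟩ := Submodule.mem_sup.mp h
    have top : ∀ i, ∃ p ∈ polySpace (k := k) η ζ (n - 1 - 1 - P.a i),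
        ∃ q ∈ polySpace (k := k) η ζ (n - 1 - 1 - P.a i), p + η * q = v i := by
      intro i
      have e : ζ * v i = a i + η * b i := (congrFun hab i).symm
      have h := polySpace_top hind (mem_freeFam.mp hv.1 i) (mem_freeFam.mp ha.1 i)
        (mem_freeFam.mp hb.1 i) e
      rw [show n - 1 - 1 - P.a i = n - 1 - P.a i - 1 by ring]
      obtain ⟨p, hp, _, ⟨q, hq, rfl⟩, hpq⟩ := Submodule.mem_sup.mp h
      exact ⟨p, hp, q, hq, hpq⟩
    choose p hp q hq hpq using top
    have hvpq : p + η • q = v := funext hpq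
    have hker : comb k P.g p + η • comb k P.g q = 0 := by
      rw [← comb_smul, ← map_add, hvpq]; exact hv.2
    have hpN : comb k P.g p ∈ N (n - 1 - 1) := by
      rw [← P.img]; exact ⟨p, mem_freeFam.mpr hp, rfl⟩
    have hqN : comb k P.g q ∈ N (n - 1 - 1) := by
      rw [← P.img]; exact ⟨q, mem_freeFam.mpr hq, rfl⟩
    have hq' : comb k P.g q ∈ N (n - 1 - 1 - 1) := by
      refine hN.sat _ _ (by rw [sub_add_cancel]; exact hqN) ?_
      rw [sub_add_cancel, eq_neg_of_add_eq_zero_right hker]
      exact neg_mem hpN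
    rw [← P.img] at hq'
    obtain ⟨c, hc, hce⟩ := hq'
    have hcl := freeFam_closed (k := k) (η := η) (ζ := ζ) P.a
    refine Submodule.mem_sup.mpr ⟨p + η • c, ⟨?_, ?_⟩, η • (q - c), ⟨q - c, ⟨?_, ?_⟩, rfl⟩, ?_⟩
    · refine add_mem (mem_freeFam.mpr hp) ?_
      have := hcl.eta _ c hc
      rwa [sub_add_cancel] at this
    · show comb k P.g (p + η • c) = 0
      rw [map_add, comb_smul, hce, hker]
    · exact sub_mem (mem_freeFam.mpr hq) (hcl.mono_le (by omega) hc)
    · show comb k P.g (q - c) = 0
      rw [map_sub, hce, sub_self]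
    · rw [smul_sub, ← hvpq]; abel

omit hind in
/-- The codimension of `x N + η N` is eventually constant. -/
theorem exists_dif2_const {r : ℕ} {N : ℤ → Submodule k (Fin r → K)} (hN : Fam η ζ N) :
    ∃ b, ∀ n ≥ b, dif (dif fun j => (finrank k (N j) : ℤ)) (n + 1) =
      dif (dif fun j => (finrank k (N j) : ℤ)) n := by
  have := hN.fd
  let U1 := adjoin (LinearMap.id (R := k)) N U0
  let U2 := adjoin (smulE k η) N U1
  have hU1 : ∀ n, U1 n = N (n - 1) := fun n => by simp [U1, adjoin, U0]
  have h1 : ∀ n, U1 n ≤ N n := fun n => by rw [hU1]; exact hN.mono_le (by omega)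
  have e1 : ∀ n, qdim N U1 n = dif (fun j => (finrank k (N j) : ℤ)) n := fun n => by
    simp only [qdim, dif]
    rw [hU1]
  have e2 : ∀ n, qdim N U2 n = dif (dif fun j => (finrank k (N j) : ℤ)) n := by
    intro n
    rw [qdim_adjoin h1 (fun m => ?_) (fun m v hv hv' => ?_)]
    · simp only [dif, e1]
    · rw [hU1, hU1]
      refine Submodule.map_le_iff_le_comap.mpr fun v hv => ?_
      have := hN.eta _ v hv
      rwa [sub_add_cancel] at this
    · rw [hU1] at hv' ⊢
      exact hN.sat _ v (by rw [sub_add_cancel]; exact hv) (by rw [sub_add_cancel]; exact hv')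
  have hU2 : ∀ n, U2 n ≤ N n := fun n => sup_le (h1 n) (Submodule.map_le_iff_le_comap.mpr
    fun v hv => by have := hN.eta _ v hv; rwa [sub_add_cancel] at this)
  obtain ⟨b, hb⟩ := hN.gen
  have anti : ∀ n ≥ b, qdim N U2 (n + 1) ≤ qdim N U2 n := by
    intro n hn
    have hU : U2 (n + 1) = N n ⊔ (N n).map (smulE k η) := by
      simp [U2, adjoin, hU1]
    have hle : (U2 n).map (smulE k ζ) ≤ U2 (n + 1) ⊓ (N n).map (smulE k ζ) := by
      refine le_inf ?_ (Submodule.map_mono (hU2 n))
      rw [hU]
      refine Submodule.map_le_iff_le_comap.mpr fun v hv => ?_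
      change v ∈ U1 n ⊔ (N (n - 1)).map (smulE k η) at hv
      rw [hU1] at hv
      obtain ⟨a, ha, _, ⟨c, hc, rfl⟩, rfl⟩ := Submodule.mem_sup.mp hv
      have h1 := hN.zeta _ a ha
      have h2 := hN.zeta _ c hc
      rw [sub_add_cancel] at h1 h2
      refine Submodule.mem_comap.mpr ?_
      rw [map_add]
      refine add_mem (mem_sup_left h1) (mem_sup_right ⟨_, h2, ?_⟩)
      show η • ζ • c = ζ • η • c
      rw [smul_comm]
    have fU2 : FiniteDimensional k (U2 n) := Submodule.finiteDimensional_of_le (hU2 n)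
    have fU2' : FiniteDimensional k (U2 (n + 1)) := Submodule.finiteDimensional_of_le (hU2 _)
    have a1 := Submodule.finrank_sup_add_finrank_inf_eq (U2 (n + 1)) ((N n).map (smulE k ζ))
    have a2 := Submodule.finrank_mono hle
    have a3 := finrank_map_add_ker (smulE k ζ) (N n)
    have a4 := finrank_map_add_ker (smulE k ζ) (U2 n)
    have a5 : finrank k (LinearMap.ker (smulE k ζ) ⊓ U2 n : Submodule k (Fin r → K))
        ≤ finrank k (LinearMap.ker (smulE k ζ) ⊓ N n : Submodule k (Fin r → K)) :=
      Submodule.finrank_mono (inf_le_inf_left _ (hU2 n))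
    have a6 : finrank k (N (n + 1))
        = finrank k (U2 (n + 1) ⊔ (N n).map (smulE k ζ) : Submodule k (Fin r → K)) := by
      rw [hb n hn, hU]
    simp only [qdim]
    linarith [show (finrank k (U2 (n + 1) ⊔ (N n).map (smulE k ζ) : Submodule k (Fin r → K)) : ℤ)
        + finrank k ((U2 n).map (smulE k ζ)) ≤ finrank k (U2 (n + 1))
          + finrank k ((N n).map (smulE k ζ)) by omega]
  obtain ⟨i, hi⟩ : ∃ i : ℕ, ∀ j : ℕ,
      (qdim N U2 (b + i)).toNat ≤ (qdim N U2 (b + j)).toNat := by
    classical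
    have hex : ∃ v i, (qdim N U2 (b + (i : ℕ))).toNat = v := ⟨_, 0, rfl⟩
    obtain ⟨i, hi⟩ := Nat.find_spec hex
    exact ⟨i, fun j => hi ▸ Nat.find_min' hex ⟨j, rfl⟩⟩
  have const : ∀ j : ℕ, qdim N U2 (b + i + j) = qdim N U2 (b + i) := by
    intro j
    induction j with
    | zero => simp
    | succ j ih =>
      have h1 := anti (b + i + j) (by omega)
      have h2 := hi (i + (j + 1))
      have h3 := qdim_nonneg hU2 (b + i + (j + 1 : ℕ))
      have h4 := qdim_nonneg hU2 (b + i)
      push_cast at h2 h3 ⊢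
      rw [← add_assoc] at h2
      rw [show b + i + ((j : ℤ) + 1) = b + i + j + 1 by ring] at h2 h3 ⊢
      omega
  refine ⟨b + i, fun n hn => ?_⟩
  obtain ⟨j, hj⟩ := Int.eq_ofNat_of_zero_le (show 0 ≤ n - (b + i) by omega)
  obtain rfl : n = b + i + j := by omega
  rw [← e2, ← e2, const j, ← const (j + 1)]
  congr 1
  push_cast; ring

/-- The pairing of a tuple with a fixed one. -/
noncomputable def dotMap0 (k : Type) {K : Type} [Field k] [Field K] [Algebra k K] {ι : Type}
    [Fintype ι] (z : ι → K) : (ι → K) →ₗ[k] K :=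
  ∑ i, (LinearMap.mulRight k (z i)) ∘ₗ LinearMap.proj i

omit hind in
theorem dotMap0_apply {ι : Type} [Fintype ι] (z u : ι → K) :
    dotMap0 k z u = ∑ i, u i * z i := by
  simp [dotMap0]

omit hind in
theorem dual_value_mem {ι : Type} [Fintype ι] {a : ι → ℤ} {m n : ℤ} {u z : ι → K}
    (hu : u ∈ freeFam (k := k) η ζ (fun i => 3 - a i) m) (hz : z ∈ freeFam (k := k) η ζ a n) :
    dotMap0 k z u ∈ polySpace (k := k) η ζ (m - (3 - n)) := by
  rw [dotMap0_apply]
  refine sum_mem fun i _ => ?_
  have h1 := mem_freeFam.mp hu i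
  have h2 := mem_freeFam.mp hz i
  rw [show m - (3 - n) = (m - (3 - a i)) + (n - a i) by ring]
  exact mul_mem_polySpace h1 h2

variable {r : ℕ} [FiniteDimensional (ratField k η ζ) K]
  [Algebra.IsSeparable (ratField k η ζ) K]

/-- The relations of a presentation are free, and a functional killing the free generators of the
relations comes from the dual family. -/
theorem exists_res {N : ℤ → Submodule k (Fin r → K)} (hN : Fam η ζ N) (P : Pres η ζ N) :
    ∃ (σ : Type) (_ : Fintype σ) (b : σ → ℤ) (v : σ → P.ι → K),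
      (∀ l, v l ∈ freeFam (k := k) η ζ P.a (b l) ∧ comb k P.g (v l) = 0) ∧
      (∀ n, (finrank k (N n) : ℤ)
        = ∑ i, (cpos (n - P.a i) : ℤ) - ∑ l, (cpos (n - b l) : ℤ)) ∧
      ∀ m, ∀ u ∈ freeFam (k := k) η ζ (fun i => 3 - P.a i) m,
        (∀ l, ∑ i, u i * v l i = 0) → u ∈ (dualFam η ζ N m).map P.values := by
  classical
  let V : ℤ → Submodule k (P.ι → K) :=
    fun n => freeFam (k := k) η ζ P.a n ⊓ LinearMap.ker (comb k P.g)
  let X : Fin 3 → (P.ι → K) →ₗ[k] (P.ι → K) := ![LinearMap.id, smulE k η, smulE k ζ]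
  have hreg : Regular3 X V := regular3_kernel hind hN P
  have hfdL := fun n => fd_freeFam (k := k) (η := η) (ζ := ζ) P.a n
  have hfd : ∀ n, FiniteDimensional k (V n) := fun n =>
    Submodule.finiteDimensional_of_le inf_le_left
  have hVcl : Closed η ζ V :=
    { mono := fun n v hv => ⟨(freeFam_closed P.a).mono n hv.1, hv.2⟩
      eta := fun n v hv => ⟨(freeFam_closed P.a).eta n v hv.1, by
        show comb k P.g (η • v) = 0
        rw [comb_smul, show comb k P.g v = 0 from hv.2, smul_zero]⟩
      zeta := fun n v hv => ⟨(freeFam_closed P.a).zeta n v hv.1, by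
        show comb k P.g (ζ • v) = 0
        rw [comb_smul, show comb k P.g v = 0 from hv.2, smul_zero]⟩ }
  have hX : ∀ i n, (V (n - 1)).map (X i) ≤ V n := by
    intro i n
    refine Submodule.map_le_iff_le_comap.mpr fun v hv => ?_
    fin_cases i
    · exact hVcl.mono_le (by omega) hv
    · have := hVcl.eta _ v hv; rwa [sub_add_cancel] at this
    · have := hVcl.zeta _ v hv; rwa [sub_add_cancel] at this
  have hc : ∀ i j, X i ∘ₗ X j = X j ∘ₗ X i := by
    intro i j
    fin_cases i <;> fin_cases j <;> refine LinearMap.ext fun v => ?_ <;>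
      simp [X, smul_comm η ζ]
  -- dimensions
  have hexact : ∀ n, (finrank k (N n) : ℤ) = ∑ i, (cpos (n - P.a i) : ℤ) - finrank k (V n) := by
    intro n
    have h := finrank_map_add_ker (comb k P.g) (freeFam (k := k) η ζ P.a n)
    rw [P.img, inf_comm, finrank_freeFam hind] at h
    rw [show (∑ i, (cpos (n - P.a i) : ℤ)) = ((∑ i, cpos (n - P.a i) : ℕ) : ℤ) by push_cast; rfl]
    simp only [V]
    omega
  let gL : ℤ → ℤ := fun n => ∑ i, if n = P.a i then 1 else 0
  let hNf : ℤ → ℤ := fun j => (finrank k (N j) : ℤ)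
  have hgK : ∀ n, qdim V (topPart X V) n = gL n - dif (dif (dif hNf)) n := by
    intro n
    have e := dif3_finrank hX hc hreg n
    have hV : (fun j => (finrank k (V j) : ℤ))
        = fun j => ∑ i, (cpos (j - P.a i) : ℤ) - hNf j := by
      funext j; have := hexact j; simp only [hNf]; omega
    rw [← e, hV]
    have e2 : gL n = ∑ i, dif (dif (dif fun j => (cpos (j - P.a i) : ℤ))) n := by
      simp only [gL, dif3_cpos]
    rw [e2]
    simp only [dif, Finset.sum_sub_distrib]
    ring
  obtain ⟨b₁, hb₁⟩ := exists_dif2_const hN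
  obtain ⟨hi', hhi⟩ := Finite.exists_le fun i : P.ι => P.a i
  obtain ⟨lo', hlo⟩ := Finite.exists_le fun i : P.ι => -P.a i
  obtain ⟨n₀, hn₀⟩ := hN.below
  let lo := min (-lo') n₀
  let hi := max hi' (b₁ + 1)
  let S := Finset.Icc lo hi
  have hVlow : ∀ n < lo, V n = ⊥ := by
    intro n hn
    rw [eq_bot_iff]
    intro v hv
    rw [Submodule.mem_bot]
    funext i
    have h := mem_freeFam.mp hv.1 i
    rw [polySpace_neg (by have := hlo i; omega), Submodule.mem_bot] at h
    exact h
  have hS : ∀ n ∉ S, topPart X V n = V n := by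
    intro n hn
    have hle : topPart X V n ≤ V n :=
      sup_le (sup_le (sup_le bot_le (hX 0 n)) (hX 1 n)) (hX 2 n)
    rcases lt_or_ge n lo with h | h
    · exact le_antisymm hle (by rw [hVlow n h]; exact bot_le)
    · have hn' : hi < n := by by_contra hc'; exact hn (Finset.mem_Icc.mpr ⟨h, by omega⟩)
      have h0 : qdim V (topPart X V) n = 0 := by
        rw [hgK]
        have g0 : gL n = 0 := Finset.sum_eq_zero fun i _ => if_neg (by have := hhi i; omega)
        have d0 := hb₁ (n - 1) (by omega)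
        rw [sub_add_cancel] at d0
        have d1 : dif (dif (dif hNf)) n = dif (dif hNf) n - dif (dif hNf) (n - 1) := rfl
        simp only [hNf] at d1 ⊢
        omega
      refine Submodule.eq_of_le_of_finrank_le hle ?_
      simp only [qdim] at h0
      omega
  have hexp := finrank_eq_sum_cpos hX hc hreg hVlow S hS (fun a ha => (Finset.mem_Icc.mp ha).1)
  -- the dual: kernel of the transpose
  have hcompl : ∀ a, ∃ C, C ≤ V a ∧ topPart X V a ⊔ C = V a ∧
      (finrank k C : ℤ) = qdim V (topPart X V) a := by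
    intro a
    have hle : topPart X V a ≤ V a := sup_le (sup_le (sup_le bot_le (hX 0 a)) (hX 1 a)) (hX 2 a)
    obtain ⟨C, hC⟩ := Submodule.exists_isCompl ((topPart X V a).comap (V a).subtype)
    refine ⟨C.map (V a).subtype, Submodule.map_subtype_le _ _, ?_, ?_⟩
    · have := congrArg (Submodule.map (V a).subtype) hC.sup_eq_top
      rwa [Submodule.map_sup, Submodule.map_comap_subtype, Submodule.map_subtype_top,
        inf_eq_right.mpr hle] at this
    · have h := Submodule.finrank_add_eq_of_isCompl hC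
      rw [(Submodule.comapSubtypeEquivOfLe hle).finrank_eq] at h
      rw [Submodule.finrank_map_subtype_eq]
      simp only [qdim]
      omega
  choose C hCV hCsup hCdim using hcompl
  have hfdC : ∀ a, FiniteDimensional k (C a) := fun a =>
    Submodule.finiteDimensional_of_le (hCV a)
  let σ := Σ a : S, Fin (finrank k (C a))
  let kg : σ → (P.ι → K) := fun l => (Module.finBasis k (C l.1) l.2 : P.ι → K)
  refine ⟨σ, inferInstance, fun l => (l.1 : ℤ), kg,
    fun l => hCV _ (Module.finBasis k (C l.1) l.2).2, fun n => ?_, fun m u hu hu0 => ?_⟩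
  · rw [hexact, hexp, Fintype.sum_sigma, ← Finset.sum_coe_sort S]
    congr 1
    refine Finset.sum_congr rfl fun a _ => ?_
    simp [hCdim]
  let φ : (P.ι → K) →ₗ[k] K := ∑ i, (LinearMap.mulLeft k (u i)) ∘ₗ LinearMap.proj i
  have hφ : ∀ v, φ v = ∑ i, u i * v i := fun v => by simp [φ]
  have hφ0 : ∀ n, ∀ v ∈ V n, φ v = 0 := by
    intro n
    suffices ∀ j : ℕ, ∀ v ∈ V (lo - 1 + j), φ v = 0 by
      intro v hv
      rcases lt_or_ge n lo with h | h
      · rw [hVlow n h] at hv; rw [(Submodule.mem_bot k).mp hv, map_zero]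
      · exact this (n - (lo - 1)).toNat v (by rwa [show lo - 1 + ((n - (lo - 1)).toNat : ℤ) = n by omega])
    intro j
    induction j with
    | zero =>
      intro v hv
      rw [hVlow _ (by simp)] at hv; rw [(Submodule.mem_bot k).mp hv, map_zero]
    | succ j ih =>
      intro v hv
      set n' := lo - 1 + ((j + 1 : ℕ) : ℤ) with hn'
      have hpred : n' - 1 = lo - 1 + (j : ℤ) := by rw [hn']; push_cast; ring
      have hT : topPart X V n' ≤ LinearMap.ker φ := by
        simp only [topPart, adjoin, U0, hpred]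
        refine sup_le (sup_le (sup_le bot_le ?_) ?_) ?_ <;>
          refine Submodule.map_le_iff_le_comap.mpr fun w hw => ?_ <;>
          show φ _ = 0
        · exact ih w hw
        · have := ih w hw
          rw [hφ] at this ⊢
          simp only [X, Matrix.cons_val_one, Matrix.cons_val_zero, DistribSMul.toLinearMap_apply,
            Pi.smul_apply, smul_eq_mul]
          simp_rw [mul_left_comm, ← Finset.mul_sum, this, mul_zero]
        · have := ih w hw
          rw [hφ] at this ⊢
          simp only [X, Matrix.cons_val, DistribSMul.toLinearMap_apply,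
            Pi.smul_apply, smul_eq_mul]
          simp_rw [mul_left_comm, ← Finset.mul_sum, this, mul_zero]
      by_cases hs : n' ∈ S
      · rw [← hCsup] at hv
        obtain ⟨t, ht, c, hc', rfl⟩ := Submodule.mem_sup.mp hv
        rw [map_add, show φ t = 0 from hT ht, zero_add]
        have hb := congrArg (fun x : C n' => φ (x : P.ι → K)) ((Module.finBasis k (C n')).sum_repr ⟨c, hc'⟩)
        simp only [Submodule.coe_sum, Submodule.coe_smul, map_sum, map_smul] at hb
        rw [← hb]
        refine Finset.sum_eq_zero fun l _ => ?_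
        have := hu0 ⟨⟨n', hs⟩, l⟩
        rw [hφ]
        simp only [kg] at this
        rw [this, smul_zero]
      · rw [← hS n' hs] at hv
        exact hT hv
  let E := ratField k η ζ
  let uE : P.ι → E := fun i => ⟨u i, polySpace_le_ratField _ (mem_freeFam.mp hu i)⟩
  let π : (P.ι → E) →ₗ[E] (Fin r → K) := Fintype.linearCombination E P.g
  have hπ : Function.Surjective π := by
    rw [← LinearMap.range_eq_top, Fintype.range_linearCombination, P.span_g hN]
  obtain ⟨s, hs⟩ := π.exists_rightInverse_of_surjective (LinearMap.range_eq_top.mpr hπ)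
  have hvan : ∀ z, π z = 0 → ∑ i, uE i * z i = 0 := by
    intro z hz
    choose e q hq hq0 hqv using fun i => exists_denom (k := k) (η := η) (ζ := ζ) (z i).2
    let Q : K := ∏ i, q i
    have hQ0 : Q ≠ 0 := Finset.prod_ne_zero_iff.mpr fun i _ => hq0 i
    have hpr : ∀ t : Finset P.ι, ∏ i ∈ t, q i ∈ polySpace (k := k) η ζ (∑ i ∈ t, (e i : ℤ)) := by
      intro t
      induction t using Finset.induction_on with
      | empty => simpa using one_mem_poly le_rfl
      | insert i t hi ih =>
        rw [Finset.prod_insert hi, Finset.sum_insert hi]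
        exact mul_mem_polySpace (hq i) ih
    let v : P.ι → K := fun i => Q * z i
    have hv : v ∈ V (∑ i, (e i : ℤ) + hi') := by
      refine ⟨mem_freeFam.mpr fun i => polySpace_mono (m := ∑ i, (e i : ℤ))
        (by have := hhi i; omega) ?_, ?_⟩
      · have h1 := mul_mem_polySpace (hqv i) (hpr (Finset.univ.erase i))
        rw [Finset.add_sum_erase _ (fun i => (e i : ℤ)) (Finset.mem_univ i)] at h1
        convert h1 using 1
        show (∏ j, q j) * (z i : K) = _
        rw [← Finset.mul_prod_erase _ _ (Finset.mem_univ i)]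
        ring
      · show comb k P.g v = 0
        have : v = Q • fun i => (z i : K) := rfl
        rw [this, comb_smul, comb_apply]
        simp only [π, Fintype.linearCombination_apply] at hz
        rw [show ∑ i, (z i : K) • P.g i = 0 from hz, smul_zero]
    have h0 := hφ0 _ v hv
    rw [hφ] at h0
    refine Subtype.ext ?_
    simp only [v, mul_left_comm _ Q, ← Finset.mul_sum] at h0
    simpa [uE] using (mul_eq_zero.mp h0).resolve_left hQ0
  let Φ : (Fin r → K) →ₗ[E] E :=
    (∑ i, (LinearMap.mulLeft E (uE i)) ∘ₗ LinearMap.proj i) ∘ₗ s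
  obtain ⟨w, hw⟩ := pair_surjective (k := k) (η := η) (ζ := ζ) Φ
  have hval : ∀ i, pair (k := k) η ζ w (P.g i) = uE i := by
    intro i
    rw [hw]
    have h1 : π (Pi.single i 1 - s (P.g i)) = 0 := by
      rw [map_sub, show π (s (P.g i)) = P.g i from LinearMap.congr_fun hs (P.g i)]
      simp [π, Fintype.linearCombination_apply_single]
    have h2 := hvan _ h1
    simp only [Pi.sub_apply, mul_sub, Finset.sum_sub_distrib, sub_eq_zero] at h2
    simp only [Φ, LinearMap.comp_apply, LinearMap.sum_apply, LinearMap.mulLeft_apply,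
      LinearMap.proj_apply]
    rw [← h2, Finset.sum_eq_single i (fun j _ hj => by simp [hj]) (by simp)]
    simp
  refine ⟨w, P.mem_dual_iff.mpr fun i => ?_, funext fun i => ?_⟩
  · rw [hval i, show m + P.a i - 3 = m - (3 - P.a i) by ring]
    exact mem_freeFam.mp hu i
  · exact congrArg Subtype.val (hval i)
/-- The binomial expansion of the Hilbert function, with the dual bound. -/
theorem exists_expansion {N : ℤ → Submodule k (Fin r → K)} (hN : Fam η ζ N) :
    ∃ (S : Finset ℤ) (g : ℤ → ℤ),
      (∀ n, (finrank k (N n) : ℤ) = ∑ a ∈ S, g a * cpos (n - a)) ∧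
      ∀ m, (∑ a ∈ S, g a * cpos (m - (3 - a))) ≤ (finrank k (dualFam η ζ N m) : ℤ) := by
  classical
  obtain ⟨P⟩ := hN.exists_pres
  obtain ⟨σ, _, b, v, hv, hexp, hker⟩ := exists_res hind hN P
  let S : Finset ℤ := Finset.univ.image P.a ∪ Finset.univ.image b
  let g : ℤ → ℤ := fun x => (∑ i, if P.a i = x then 1 else 0) - ∑ l, if b l = x then 1 else 0
  have hsum : ∀ f : ℤ → ℕ,
      ∑ x ∈ S, g x * f x = ∑ i, (f (P.a i) : ℤ) - ∑ l, (f (b l) : ℤ) := by
    intro f
    simp only [g, sub_mul, Finset.sum_sub_distrib, Finset.sum_mul, ite_mul, one_mul, zero_mul]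
    congr 1 <;>
      · rw [Finset.sum_comm]
        refine Finset.sum_congr rfl fun i _ => ?_
        rw [Finset.sum_ite_eq, if_pos (by simp [S])]
  refine ⟨S, g, fun n => by rw [hexp, hsum fun a => cpos (n - a)], fun m => ?_⟩
  rw [hsum fun a => cpos (m - (3 - a))]
  let Ψ : (P.ι → K) →ₗ[k] (σ → K) := LinearMap.pi fun l => dotMap0 k (v l)
  let aL : P.ι → ℤ := fun i => 3 - P.a i
  let aK : σ → ℤ := fun l => 3 - b l
  have hmapΨ : (freeFam (k := k) η ζ aL m).map Ψ ≤ freeFam (k := k) η ζ aK m := by
    refine Submodule.map_le_iff_le_comap.mpr fun u hu => mem_freeFam.mpr fun l => ?_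
    exact dual_value_mem hu (hv l).1
  have hker' : freeFam (k := k) η ζ aL m ⊓ LinearMap.ker Ψ ≤ (dualFam η ζ N m).map P.values := by
    rintro u ⟨hu, hu0⟩
    refine hker m u hu fun l => ?_
    rw [← dotMap0_apply (k := k)]
    exact congrFun (show Ψ u = 0 from hu0) l
  have hdual := hN.dual hind
  have := hdual.fd m
  have := fd_freeFam (k := k) (η := η) (ζ := ζ) aL m
  have := fd_freeFam (k := k) (η := η) (ζ := ζ) aK m
  have h1 := finrank_map_add_ker Ψ (freeFam (k := k) η ζ aL m)
  rw [inf_comm] at h1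
  have h2 := Submodule.finrank_mono hmapΨ
  have h3 := Submodule.finrank_mono hker'
  have h4 := Submodule.finrank_map_le P.values (dualFam η ζ N m)
  have h5 := finrank_freeFam hind aL m
  have h6 := finrank_freeFam hind aK m
  simp only [aL, aK] at *
  rw [← Nat.cast_sum, ← Nat.cast_sum]
  omega

end Vale.Agent.P190.Hilb
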