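import Vale.Agent.P190.Hilb.Bridge

/-! Change of the coordinate `x` to `l = x + α y`. -/

namespace Vale.Agent.P190.Hilb

open Submodule Module

variable {k K : Type} [Field k] [Field K] [Algebra k K] {η ζ : K}

/-- The new linear form, divided by `x`. -/
noncomputable def lin (α : k) (η : K) : K := 1 + α • η

theorem lin_mem (α : k) : lin α η ∈ polySpace (k := k) η ζ 1 :=
  add_mem (one_mem_poly zero_le_one) (Submodule.smul_mem _ _ eta_mem)

theorem lin_ne_zero (hind : AlgebraicIndependent k ![η, ζ]) (α : k) : lin α η ≠ 0 := by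
  intro h
  have e : ev η ζ (1 + MvPolynomial.C α * MvPolynomial.X 0) = ev (k := k) η ζ 0 := by
    simpa [ev, lin, Algebra.smul_def] using h
  have := congrArg (MvPolynomial.coeff 0) (ev_injective hind e)
  simp [MvPolynomial.coeff_X] at this

theorem inv_lin_eq {α : k} (hl : lin α η ≠ 0) :
    (lin α η)⁻¹ = 1 - α • (η / lin α η) := by
  rw [← smul_div_assoc, eq_sub_iff_add_eq, inv_eq_one_div, ← add_div, div_eq_one_iff_eq hl]
  rfl

theorem polySpace_change {α : k} (hl : lin α η ≠ 0) (m : ℤ) :
    polySpace (k := k) (η / lin α η) (ζ / lin α η) m =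
      (polySpace (k := k) η ζ m).map (LinearMap.mulLeft k (lin α η ^ (-m))) := by
  rcases lt_or_ge m 0 with h | h
  · rw [polySpace_neg h, polySpace_neg h, Submodule.map_bot]
  obtain ⟨m, rfl⟩ := Int.eq_ofNat_of_zero_le h
  have hpow : ∀ {e : K} {x y : K}, e ∈ polySpace (k := k) x y 1 → ∀ j : ℕ,
      e ^ j ∈ polySpace (k := k) x y (j : ℤ) := by
    intro e x y he j
    induction j with
    | zero => simpa using one_mem_poly le_rfl
    | succ j ih => rw [pow_succ]; push_cast; exact mul_mem_polySpace ih he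
  apply le_antisymm
  · refine span_le.mpr ?_
    rintro _ ⟨a, b, hab, rfl⟩
    have hab' : a + b ≤ m := by exact_mod_cast hab
    refine ⟨(η ^ a * ζ ^ b) * lin α η ^ (m - a - b), ?_, ?_⟩
    · have := mul_mem_polySpace (mem_polySpace_of (k := k) (η := η) (ζ := ζ)
        (le_refl ((a + b : ℕ) : ℤ))) (hpow (lin_mem (ζ := ζ) α) (m - a - b))
      rwa [show ((a + b : ℕ) : ℤ) + ((m - a - b : ℕ) : ℤ) = m by omega] at this
    · show lin α η ^ (-(m : ℤ)) * _ = _
      rw [zpow_neg, zpow_natCast, div_pow, div_pow]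
      rw [show lin α η ^ m = lin α η ^ a * lin α η ^ b * lin α η ^ (m - a - b) by
        rw [← pow_add, ← pow_add]; congr 1; omega]
      field_simp
  · rw [show polySpace (k := k) η ζ (m : ℤ) = span k {v | ∃ a b : ℕ, ((a + b : ℕ) : ℤ) ≤ (m : ℤ) ∧
      v = η ^ a * ζ ^ b} from rfl, Submodule.map_span, span_le]
    rintro _ ⟨_, ⟨a, b, hab, rfl⟩, rfl⟩
    have hab' : a + b ≤ m := by exact_mod_cast hab
    show lin α η ^ (-(m : ℤ)) * _ ∈ polySpace (k := k) _ _ _
    have hinv : (lin α η)⁻¹ ∈ polySpace (k := k) (η / lin α η) (ζ / lin α η) 1 := by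
      rw [inv_lin_eq hl]
      exact sub_mem (one_mem_poly zero_le_one) (Submodule.smul_mem _ _ eta_mem)
    have := mul_mem_polySpace (mem_polySpace_of (k := k) (η := η / lin α η) (ζ := ζ / lin α η)
        (le_refl ((a + b : ℕ) : ℤ))) (hpow hinv (m - a - b))
    rw [show ((a + b : ℕ) : ℤ) + ((m - a - b : ℕ) : ℤ) = m by omega] at this
    convert this using 1
    rw [zpow_neg, zpow_natCast, div_pow, div_pow, inv_pow]
    rw [show lin α η ^ m = lin α η ^ a * lin α η ^ b * lin α η ^ (m - a - b) by
      rw [← pow_add, ← pow_add]; congr 1; omega]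
    field_simp

theorem lin_ratField (α : k) : lin α η ∈ ratField k η ζ :=
  polySpace_le_ratField _ (lin_mem α)

theorem zpow_mem_ratField (α : k) (n : ℤ) : lin α η ^ n ∈ ratField k η ζ :=
  zpow_mem (lin_ratField α) n

theorem ratField_change {α : k} (hl : lin α η ≠ 0) :
    ratField k (η / lin α η) (ζ / lin α η) = ratField k η ζ := by
  apply le_antisymm <;> rw [IntermediateField.adjoin_le_iff]
  · rintro x (rfl | rfl)
    · exact div_mem eta_ratField (lin_ratField α)
    · exact div_mem zeta_ratField (lin_ratField α)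
  · have hl' : lin α η ∈ ratField k (η / lin α η) (ζ / lin α η) := by
      refine inv_mem_iff.mp ?_
      rw [inv_lin_eq hl]
      exact sub_mem (one_mem _) (IntermediateField.smul_mem _
        (eta_ratField (k := k) (η := η / lin α η) (ζ := ζ / lin α η)))
    rintro x (rfl | rfl)
    · have := mul_mem (eta_ratField (k := k) (η := x / lin α x) (ζ := ζ / lin α x)) hl'
      rwa [div_mul_cancel₀ _ hl] at this
    · have := mul_mem (zeta_ratField (k := k) (η := η / lin α η) (ζ := x / lin α η)) hl'
      rwa [div_mul_cancel₀ _ hl] at this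

theorem trace_congr {E₁ E₂ : IntermediateField k K} (h : E₁ = E₂) (x : K) :
    ((Algebra.trace E₁ K x : E₁) : K) = ((Algebra.trace E₂ K x : E₂) : K) := by
  subst h; rfl

theorem pair_change {ι : Type} [Fintype ι] {α : k} (hl : lin α η ≠ 0) (w v : ι → K) :
    ((pair (k := k) (η / lin α η) (ζ / lin α η) w v : ratField k (η / lin α η) (ζ / lin α η)) : K)
      = ((pair (k := k) η ζ w v : ratField k η ζ) : K) := by
  rw [pair_apply, pair_apply]
  exact trace_congr (ratField_change hl) _

theorem finite_congr {E₁ E₂ : IntermediateField k K} (h : E₁ = E₂)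
    [FiniteDimensional E₁ K] : FiniteDimensional E₂ K := by
  subst h; infer_instance

theorem sep_congr {E₁ E₂ : IntermediateField k K} (h : E₁ = E₂)
    [Algebra.IsSeparable E₁ K] : Algebra.IsSeparable E₂ K := by
  subst h; infer_instance

theorem indep_change (hind : AlgebraicIndependent k ![η, ζ]) (α : k) :
    AlgebraicIndependent k ![η / lin α η, ζ / lin α η] := by
  have hl := lin_ne_zero hind α
  rw [algebraicIndependent_iff_injective_aeval, injective_iff_map_eq_zero]
  intro p hp
  set η' := η / lin α η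
  set ζ' := ζ / lin α η
  let m := p.totalDegree
  let f : MvPolynomial.restrictTotalDegree (Fin 2) k m →ₗ[k] polySpace (k := k) η' ζ' (m : ℤ) :=
    ((ev η' ζ').toLinearMap.domRestrict _).codRestrict _ fun q => by
      rw [polySpace_eq_map]; exact ⟨q, q.2, rfl⟩
  have hsurj : Function.Surjective f := by
    rintro ⟨v, hv⟩
    obtain ⟨q, hq, rfl⟩ := mem_polySpace.mp hv
    exact ⟨⟨q, (MvPolynomial.mem_restrictTotalDegree _ _ _).mpr hq⟩, rfl⟩
  have hdim : finrank k (MvPolynomial.restrictTotalDegree (Fin 2) k m)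
      = finrank k (polySpace (k := k) η' ζ' (m : ℤ)) := by
    rw [polySpace_change hl, ← (Submodule.equivMapOfInjective
        (LinearMap.mulLeft k (lin α η ^ (-(m : ℤ)))) (mul_right_injective₀ (zpow_ne_zero _ hl))
        _).finrank_eq, polySpace_eq_map,
      ← (Submodule.equivMapOfInjective (ev η ζ).toLinearMap (ev_injective hind) _).finrank_eq]
  have : FiniteDimensional k (polySpace (k := k) η' ζ' (m : ℤ)) := by
    rw [polySpace_eq_map]; infer_instance
  have hinj := (LinearMap.injective_iff_surjective_of_finrank_eq_finrank hdim).mpr hsurj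
  have := @hinj ⟨p, (MvPolynomial.mem_restrictTotalDegree _ _ _).mpr le_rfl⟩ 0
    (Subtype.ext (by simpa [f, ev] using hp))
  exact congrArg Subtype.val this

/-- The family in the new coordinates. -/
noncomputable def scaleFam {r : ℕ} (α : k) (η : K) (N : ℤ → Submodule k (Fin r → K)) (n : ℤ) :
    Submodule k (Fin r → K) :=
  (N n).map (smulE k (lin α η ^ (-n)))

theorem finrank_scaleFam {r : ℕ} {α : k} (hl : lin α η ≠ 0)
    (N : ℤ → Submodule k (Fin r → K)) (n : ℤ) :
    finrank k (scaleFam α η N n) = finrank k (N n) :=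
  (Submodule.equivMapOfInjective (smulE k (lin α η ^ (-n)))
    (smul_right_injective _ (zpow_ne_zero _ hl)) (N n)).finrank_eq.symm

theorem pair_smul_right {ι : Type} [Fintype ι] {e : K} (he : e ∈ ratField k η ζ) (w v : ι → K) :
    ((pair (k := k) η ζ w (e • v) : ratField k η ζ) : K) = e * pair (k := k) η ζ w v := by
  have : e • v = (⟨e, he⟩ : ratField k η ζ) • v := rfl
  rw [this, map_smul]
  rfl

/-- Dual vectors in the new coordinates. -/
theorem dual_change {r : ℕ} {α : k} (hl : lin α η ≠ 0) {N : ℤ → Submodule k (Fin r → K)} {m : ℤ}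
    {w : Fin r → K} (hw : w ∈ dualFam η ζ N m) :
    lin α η ^ (3 - m) • w ∈ dualFam (η / lin α η) (ζ / lin α η) (scaleFam α η N) m := by
  rw [mem_dualFam] at hw ⊢
  rintro j _ ⟨a, ha, rfl⟩
  rw [pair_change hl, DistribSMul.toLinearMap_apply, pair_smul_left (zpow_mem_ratField α _),
    pair_smul_right (zpow_mem_ratField α _), polySpace_change hl]
  refine ⟨_, hw j a ha, ?_⟩
  show lin α η ^ (-(m + j - 3)) * _ = _
  rw [← mul_assoc, ← zpow_add₀ hl, show 3 - m + -j = -(m + j - 3) by ring]

theorem scaleFam_refl {r : ℕ} {α : k} (hl : lin α η ≠ 0) {N : ℤ → Submodule k (Fin r → K)}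
    (hrefl : ∀ n, dualFam η ζ (dualFam η ζ N) n ≤ N n) (n : ℤ) :
    dualFam (η / lin α η) (ζ / lin α η)
      (dualFam (η / lin α η) (ζ / lin α η) (scaleFam α η N)) n ≤ scaleFam α η N n := by
  intro v hv
  refine ⟨lin α η ^ n • v, hrefl n ?_, ?_⟩
  · rw [mem_dualFam] at hv ⊢
    intro m w hw
    have h := hv m _ (dual_change hl hw)
    rw [pair_change hl, pair_smul_right (zpow_mem_ratField α _), polySpace_change hl] at h
    obtain ⟨q, hq, hqe⟩ := h
    rw [pair_smul_left (zpow_mem_ratField α _)]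
    have hqe' : lin α η ^ (-(n + m - 3)) * q = lin α η ^ (3 - m) * pair (k := k) η ζ v w := hqe
    have e : lin α η ^ n * pair (k := k) η ζ v w = q :=
      calc lin α η ^ n * pair (k := k) η ζ v w
          = lin α η ^ (n + m - 3) * (lin α η ^ (3 - m) * pair (k := k) η ζ v w) := by
            rw [← mul_assoc, ← zpow_add₀ hl]; ring_nf
        _ = q := by
            rw [← hqe', ← mul_assoc, ← zpow_add₀ hl, add_neg_cancel, zpow_zero, one_mul]
    rw [e]
    exact hq
  · rw [DistribSMul.toLinearMap_apply, smul_smul, ← zpow_add₀ hl, neg_add_cancel, zpow_zero,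
      one_smul]

theorem scaleFam_fam (hind : AlgebraicIndependent k ![η, ζ]) (α : k) {r : ℕ}
    {N : ℤ → Submodule k (Fin r → K)} (hN : Fam η ζ N)
    (hrefl : ∀ n, dualFam η ζ (dualFam η ζ N) n ≤ N n) :
    Fam (η / lin α η) (ζ / lin α η) (scaleFam α η N) := by
  have hl := lin_ne_zero hind α
  have step : ∀ n : ℤ, ∀ a : Fin r → K, ∀ e : K, lin α η ^ (-(n + 1)) • (e • a : Fin r → K)
      = (e / lin α η) • lin α η ^ (-n) • a := by
    intro n a e
    rw [smul_smul, smul_smul]
    congr 1
    rw [neg_add, zpow_add₀ hl, zpow_neg_one]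
    ring
  have hcl : Closed (η / lin α η) (ζ / lin α η) (scaleFam α η N) := by
    refine ⟨?_, ?_, ?_⟩
    · rintro n _ ⟨a, ha, rfl⟩
      refine ⟨lin α η • a, ?_, ?_⟩
      · simp only [lin, add_smul, one_smul, smul_assoc]
        exact add_mem (hN.mono n ha) (Submodule.smul_mem _ _ (hN.eta n a ha))
      · rw [DistribSMul.toLinearMap_apply, step, div_self hl, one_smul]; rfl
    · rintro n _ ⟨a, ha, rfl⟩
      exact ⟨η • a, hN.eta n a ha, by
        rw [DistribSMul.toLinearMap_apply, step]; rfl⟩
    · rintro n _ ⟨a, ha, rfl⟩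
      exact ⟨ζ • a, hN.zeta n a ha, by
        rw [DistribSMul.toLinearMap_apply, step]; rfl⟩
  have hsub : ∀ n, ∀ v ∈ scaleFam α η N n,
      v ∈ dualFam (η / lin α η) (ζ / lin α η)
        (dualFam (η / lin α η) (ζ / lin α η) (scaleFam α η N)) n := by
    intro n v hv
    rw [mem_dualFam]
    intro j w hw
    have h := mem_dualFam.mp hw n v hv
    rw [pair_apply] at h ⊢
    rw [show n + j - 3 = j + n - 3 by ring, show ∑ i, v i * w i = ∑ i, w i * v i from
      Finset.sum_congr rfl fun i _ => mul_comm _ _]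
    exact h
  refine ⟨hcl, fun n => ?_, ?_, fun n v hv hv' => ?_, ?_, ?_⟩
  · have := hN.fd n
    exact Module.Finite.map (N n) _
  · obtain ⟨n₀, hn₀⟩ := hN.below
    exact ⟨n₀, fun n hn => by rw [scaleFam, hn₀ n hn, Submodule.map_bot]⟩
  · exact scaleFam_refl hl hrefl n
      (dualFam_sat (indep_change hind α) (hsub _ v hv) (hsub _ _ hv'))
  · obtain ⟨b, hb⟩ := hN.gen
    refine ⟨b, fun n hn => le_antisymm ?_ (hcl.adjoin_le_self n)⟩
    set T := scaleFam α η N n ⊔ (scaleFam α η N n).map (smulE k (η / lin α η))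
      ⊔ (scaleFam α η N n).map (smulE k (ζ / lin α η)) with hT
    rw [scaleFam, hb n hn, Submodule.map_sup, Submodule.map_sup]
    refine sup_le (sup_le ?_ ?_) ?_
    · rintro _ ⟨a, ha, rfl⟩
      have hv : lin α η ^ (-n) • a ∈ scaleFam α η N n := ⟨a, ha, rfl⟩
      have e : lin α η ^ (-(n + 1)) • a = lin α η ^ (-n) • a
          - α • ((η / lin α η) • lin α η ^ (-n) • a) := by
        have := step n a 1
        rw [one_smul] at this
        rw [this, one_div, inv_lin_eq hl, sub_smul, one_smul, smul_assoc]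
      rw [DistribSMul.toLinearMap_apply, e]
      exact sub_mem (mem_sup_left (mem_sup_left hv))
        (Submodule.smul_mem _ _ (mem_sup_left (mem_sup_right ⟨_, hv, rfl⟩)))
    · rintro _ ⟨_, ⟨a, ha, rfl⟩, rfl⟩
      exact mem_sup_left (mem_sup_right ⟨lin α η ^ (-n) • a, ⟨a, ha, rfl⟩, by
        rw [DistribSMul.toLinearMap_apply, DistribSMul.toLinearMap_apply,
          DistribSMul.toLinearMap_apply, step]⟩)
    · rintro _ ⟨_, ⟨a, ha, rfl⟩, rfl⟩
      exact mem_sup_right ⟨lin α η ^ (-n) • a, ⟨a, ha, rfl⟩, by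
        rw [DistribSMul.toLinearMap_apply, DistribSMul.toLinearMap_apply,
          DistribSMul.toLinearMap_apply, step]⟩
  · rw [eq_top_iff]
    intro x hx0
    clear hx0
    have hx : x ∈ span (ratField k η ζ) (⋃ n, (N n : Set (Fin r → K))) :=
      hN.spanE ▸ Submodule.mem_top
    induction hx using Submodule.span_induction with
    | zero => simp
    | add u w _ _ hu hw => exact add_mem hu hw
    | smul e u _ hu =>
      exact Submodule.smul_mem _
        (⟨e.1, (ratField_change hl).symm ▸ e.2⟩ : ratField k (η / lin α η) (ζ / lin α η)) hu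
    | mem u hu =>
      obtain ⟨n, hn⟩ := Set.mem_iUnion.mp hu
      have hv : lin α η ^ (-n) • u ∈ span (ratField k (η / lin α η) (ζ / lin α η))
          (⋃ n, (scaleFam α η N n : Set (Fin r → K))) :=
        subset_span (Set.mem_iUnion.mpr ⟨n, u, hn, rfl⟩)
      have := Submodule.smul_mem _ (⟨lin α η ^ n, (ratField_change hl).symm ▸
        zpow_mem_ratField α n⟩ : ratField k (η / lin α η) (ζ / lin α η)) hv
      convert this using 1
      show u = lin α η ^ n • lin α η ^ (-n) • u
      rw [smul_smul, ← zpow_add₀ hl, add_neg_cancel, zpow_zero, one_smul]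

end Vale.Agent.P190.Hilb
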