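import Vale.Agent.P190.Hilb.Change

/-! The bound on the Hilbert function of a module with bounded slopes. -/

namespace Vale.Agent.P190.Hilb

open Submodule Module Filter

variable {k K : Type} [Field k] [Field K] [Algebra k K] {η ζ : K} {r : ℕ}

theorem det_mem_polySpace {ι : Type} [Fintype ι] [DecidableEq ι] {M : Matrix ι ι K} {d : ι → ℤ}
    (h : ∀ i j, M i j ∈ polySpace (k := k) η ζ (d i)) :
    M.det ∈ polySpace (k := k) η ζ (∑ i, d i) := by
  have hprod : ∀ (σ : Equiv.Perm ι) (t : Finset ι),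
      ∏ i ∈ t, M (σ i) i ∈ polySpace (k := k) η ζ (∑ i ∈ t, d (σ i)) := by
    intro σ t
    induction t using Finset.induction_on with
    | empty => simpa using one_mem_poly le_rfl
    | insert i t hi ih =>
      rw [Finset.prod_insert hi, Finset.sum_insert hi]
      exact mul_mem_polySpace (h _ _) ih
  rw [Matrix.det_apply']
  refine sum_mem fun σ _ => ?_
  have := hprod σ Finset.univ
  rw [Equiv.sum_comp σ d] at this
  rcases Int.units_eq_one_or (Equiv.Perm.sign σ) with hs | hs
  · simpa [hs] using this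
  · simpa [hs] using neg_mem this

variable (hind : AlgebraicIndependent k ![η, ζ]) [FiniteDimensional (ratField k η ζ) K]
  [Algebra.IsSeparable (ratField k η ζ) K]

include hind

/-- Increment bound, given a family in degree `n₁` whose pairing determinant has exact degree. -/
theorem top_bound {N : ℤ → Submodule k (Fin r → K)} (hN : Fam η ζ N)
    (hrefl : ∀ n, dualFam η ζ (dualFam η ζ N) n ≤ N n) {D : ℕ}
    (hD : D = finrank (ratField k η ζ) (Fin r → K)) {e c : ℚ} (hP : HasPoly N (D : ℚ) e c)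
    {n₁ : ℤ} {ι : Type} [Fintype ι] [DecidableEq ι] (z w : ι → Fin r → K) (ms : ι → ℤ)
    (hz : ∀ l, z l ∈ N n₁) (hw : ∀ s, w s ∈ dualFam η ζ N (ms s))
    (hspan : span (ratField k η ζ) (Set.range w) = ⊤)
    (hdet : Matrix.det (Matrix.of fun s l =>
        ((pair (k := k) η ζ (w s) (z l) : ratField k η ζ) : K))
      ∉ polySpace (k := k) η ζ ((∑ s, (n₁ + ms s - 3)) - 1))
    {n : ℤ} {g : ℤ} (hg : 0 ≤ g) (hn₁ : n₁ ≤ n + g) :
    (finrank k (N n) : ℚ) - finrank k (N (n - 1)) ≤ (D : ℚ) * ((n : ℚ) + 1 + g) + e := by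
  classical
  obtain ⟨P⟩ := hN.exists_pres
  have hfdN := hN.fd
  have hfdD := (hN.dual hind).fd
  set aL : P.ι → ℤ := fun i => 3 - P.a i with haL
  obtain ⟨S, gg, hgg, hexp, hdualH, hNbound, T, hTN, hHT⟩ := exists_topData hind hN hrefl P
  set δ : ℤ := ∑ s, (n₁ + ms s - 3) with hδ
  set Mx : Matrix ι ι K := Matrix.of fun s l =>
    ((pair (k := k) η ζ (w s) (z l) : ratField k η ζ) : K) with hMx
  have hMmem : ∀ s l, Mx s l ∈ polySpace (k := k) η ζ (n₁ + ms s - 3) := fun s l => by
    have := mem_dualFam.mp (hw s) n₁ (z l) (hz l)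
    rwa [show ms s + n₁ - 3 = n₁ + ms s - 3 by ring] at this
  have hdetmem : Mx.det ∈ polySpace (k := k) η ζ δ := det_mem_polySpace hMmem
  have hlift : ∀ l, ∃ y ∈ freeFam (k := k) η ζ P.a n₁, comb k P.g y = z l := fun l => by
    have := hz l
    rw [← P.img] at this
    exact this
  choose y hy hye using hlift
  -- no top forms below degree `3 - n₁`
  have hlow : ∀ m ≤ 2 - n₁, topHom P m ≤ freeFam (k := k) η ζ aL (m - 1) := by
    intro m hm u hu
    refine mem_freeFam.mpr fun i => ?_
    obtain ⟨hu1, hu2⟩ := mem_topHom.mp hu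
    set v : ι → K := fun s => ((pair (k := k) η ζ (w s) (P.g i) : ratField k η ζ) : K) with hv
    have hvmem : ∀ s, v s ∈ polySpace (k := k) η ζ (ms s + P.a i - 3) := fun s =>
      mem_dualFam.mp (hw s) _ _ (P.g_mem i)
    set cv : ι → K := fun l => ∑ s, Mx.adjugate l s * v s with hcv
    have hcmem : ∀ l, cv l ∈ polySpace (k := k) η ζ (δ + P.a i - n₁) := by
      intro l
      refine sum_mem fun s _ => ?_
      have hadj : Mx.adjugate l s ∈ polySpace (k := k) η ζ (δ - (n₁ + ms s - 3)) := by
        rw [Matrix.adjugate_apply]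
        have h := det_mem_polySpace (k := k) (η := η) (ζ := ζ)
          (M := Mx.updateRow s (Pi.single l 1))
          (d := fun t => if t = s then 0 else n₁ + ms t - 3) fun t j => by
          rcases eq_or_ne t s with rfl | ht
          · rw [if_pos rfl, Matrix.updateRow_self, Pi.single_apply]
            split_ifs
            · exact one_mem_poly le_rfl
            · exact zero_mem _
          · rw [if_neg ht, Matrix.updateRow_ne ht]
            exact hMmem t j
        convert h using 2
        rw [hδ, Finset.sum_ite, Finset.filter_eq', if_pos (Finset.mem_univ s)]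
        simp [Finset.filter_ne', Finset.sum_erase_eq_sub (Finset.mem_univ s)]
      rw [show δ + P.a i - n₁ = (δ - (n₁ + ms s - 3)) + (ms s + P.a i - 3) by ring]
      exact mul_mem_polySpace hadj (hvmem s)
    have hME : ∀ l, cv l ∈ ratField k η ζ := fun l => polySpace_le_ratField _ (hcmem l)
    have hdE : Mx.det ∈ ratField k η ζ := polySpace_le_ratField _ hdetmem
    have hrel : ∑ l, cv l • z l = Mx.det • P.g i := by
      have key : ∀ t, ((pair (k := k) η ζ (w t) (∑ l, cv l • z l) : ratField k η ζ) : K)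
          = pair (k := k) η ζ (w t) (Mx.det • P.g i) := by
        intro t
        rw [map_sum, IntermediateField.coe_sum, pair_smul_right hdE]
        simp only [pair_smul_right (hME _)]
        have : ∑ l, cv l * Mx t l = ((Mx * Mx.adjugate).mulVec v) t := by
          simp only [Matrix.mulVec, dotProduct, Matrix.mul_apply, hcv, Finset.sum_mul]
          rw [Finset.sum_comm]
          exact Finset.sum_congr rfl fun a _ => Finset.sum_congr rfl fun b _ => by ring
        rw [Matrix.mul_adjugate, Matrix.smul_mulVec, Matrix.one_mulVec] at this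
        simpa [hMx, hv] using this
      refine sub_eq_zero.mp (pair_injective (k := k) (η := η) (ζ := ζ)
        (LinearMap.ext_on hspan ?_))
      rintro _ ⟨t, rfl⟩
      refine Subtype.ext ?_
      have hs : ∀ x : Fin r → K,
          pair (k := k) η ζ x (w t) = pair (k := k) η ζ (w t) x := fun x => by
        rw [pair_apply, pair_apply]
        congr 1
        exact Finset.sum_congr rfl fun _ _ => mul_comm _ _
      rw [hs, map_sub, LinearMap.zero_apply]
      show ((pair (k := k) η ζ (w t) (∑ l, cv l • z l) : ratField k η ζ) : K)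
        - pair (k := k) η ζ (w t) (Mx.det • P.g i) = 0
      rw [key, sub_self]
    let zz : P.ι → K := Pi.single i Mx.det - ∑ l, cv l • y l
    have hzz : zz ∈ freeFam (k := k) η ζ P.a (δ + P.a i) := by
      refine sub_mem (mem_freeFam.mpr fun j => ?_) (sum_mem fun l _ => ?_)
      · rcases eq_or_ne j i with rfl | hj
        · simpa using hdetmem
        · simp [hj]
      · have := (freeFam_closed P.a).poly_smul (hcmem l) (hy l)
        rwa [show n₁ + (δ + P.a i - n₁) = δ + P.a i by ring] at this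
    have hzz0 : comb k P.g zz = 0 := by
      simp only [zz, map_sub, map_sum, comb_smul, hye]
      rw [hrel, comb_apply, Finset.sum_eq_single i (fun j _ hj => by simp [hj]) (by simp)]
      simp
    have h := hu2 _ zz hzz hzz0
    have hy0 : ∀ l, dotMap k (y l) u = 0 := fun l => by
      have := dotMap_mem hu1 (hy l)
      rwa [polySpace_neg (by omega), Submodule.mem_bot] at this
    have e0 : dotMap k zz u = u i * Mx.det := by
      have : dotMap k zz u = dotMap k (Pi.single i Mx.det) u - ∑ l, cv l * dotMap k (y l) u := by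
        simp only [dotMap_apply, zz, Pi.sub_apply, mul_sub, Finset.sum_sub_distrib,
          Finset.sum_apply, Pi.smul_apply, smul_eq_mul, Finset.mul_sum]
        congr 1
        rw [Finset.sum_comm]
        exact Finset.sum_congr rfl fun a _ => Finset.sum_congr rfl fun b _ => by ring
      rw [this, Finset.sum_eq_zero (fun l _ => by rw [hy0, mul_zero]), sub_zero, dotMap_apply,
        Finset.sum_eq_single i (fun j _ hj => by simp [hj]) (by simp)]
      simp
    rw [e0] at h
    rw [show m - 1 - aL i = m - aL i - 1 by ring]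
    refine polySpace_mul_exact hind (q := δ) (mem_freeFam.mp hu1 i) hdetmem hdet ?_
    rwa [show m - aL i + δ - 1 = m + (δ + P.a i) - 4 by simp only [haL]; ring]
  have hg0 : ∀ a ∈ S, a ≤ 2 - n₁ → gg a = 0 := by
    intro a _ ha
    have h1 := (hgg a).2
    have h2 := (hgg a).1
    have : FiniteDimensional k (freeFam (k := k) η ζ aL (a - 1)) := fd_freeFam _ _
    have h3 : finrank k (topHom P a) ≤
        finrank k (freeFam (k := k) η ζ (fun i => 3 - P.a i) (a - 1)) :=
      Submodule.finrank_mono (hlow a ha)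
    simp only [qdim] at h1
    omega
  -- counting
  set G : ℚ := ∑ a ∈ S, (gg a : ℚ) with hG
  obtain ⟨e₁, c₁, hP₁, hb₁⟩ : ∃ e₁ c₁, HasPoly (dualFam η ζ N) (D : ℚ) e₁ c₁ ∧
      e₁ = -3 * (D : ℚ) - e :=
    ⟨_, _, dual_hasPoly hind hN hrefl (by rw [hD]) hP, rfl⟩
  obtain ⟨n₀, hn₀⟩ := eventually_atTop.mp (hP.and hP₁)
  obtain ⟨A, hA⟩ := Finite.exists_le fun i : P.ι => |P.a i|
  set B : ℤ := max n₀ (|A| + (∑ a ∈ S, |a|) + 4) + 1 with hB
  have hbig : ∀ m ≥ B, n₀ ≤ m - 1 ∧ (∀ a ∈ S, 0 ≤ m - a) ∧
      ∀ i : P.ι, 0 ≤ m - P.a i ∧ 0 ≤ m - aL i := by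
    intro m hm
    have h1 := le_max_left n₀ (|A| + (∑ a ∈ S, |a|) + 4)
    have h2 := le_max_right n₀ (|A| + (∑ a ∈ S, |a|) + 4)
    have h3 := Finset.sum_nonneg (s := S) fun a _ => abs_nonneg a
    have h4 := le_abs_self A
    have := abs_nonneg A
    refine ⟨by omega, fun a ha => ?_, fun i => ?_⟩
    · have h5 : |a| ≤ ∑ a ∈ S, |a| := Finset.single_le_sum (fun a _ => abs_nonneg a) ha
      have := le_abs_self a
      omega
    · have := hA i
      have := le_abs_self (P.a i)
      have := neg_abs_le (P.a i)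
      simp only [haL]
      constructor <;> omega
  have hdiff : ∀ m ≥ B,
      ((finrank k (N m) : ℚ) - finrank k (N (m - 1)) = D * ((m : ℚ) + 1) + e) ∧
      ((finrank k (dualFam η ζ N m) : ℚ) - finrank k (dualFam η ζ N (m - 1))
        = D * ((m : ℚ) + 1) + e₁) := by
    intro m hm
    have h0 := (hbig m hm).1
    rw [(hn₀ m (by omega)).1, (hn₀ (m - 1) h0).1, (hn₀ m (by omega)).2, (hn₀ (m - 1) h0).2]
    push_cast
    constructor <;> ring
  have hsum : ∀ m ≥ B, ((∑ a ∈ S, gg a * lpos (m - a) : ℤ) : ℚ)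
      = G * ((m : ℚ) + 1) - ∑ a ∈ S, (gg a : ℚ) * a := by
    intro m hm
    rw [Finset.sum_congr rfl fun a ha => by rw [lpos_of_nonneg ((hbig m hm).2.1 a ha)]]
    push_cast
    rw [hG, Finset.sum_mul, ← Finset.sum_sub_distrib]
    exact Finset.sum_congr rfl fun a _ => by ring
  have hdual' : ∀ m ≥ B, (D : ℚ) * ((m : ℚ) + 1) + e₁
      ≤ G * ((m : ℚ) + 1) - ∑ a ∈ S, (gg a : ℚ) * a := by
    intro m hm
    have h : (((finrank k (dualFam η ζ N m) : ℤ) - finrank k (dualFam η ζ N (m - 1)) : ℤ) : ℚ)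
        ≤ ((∑ a ∈ S, gg a * lpos (m - a) : ℤ) : ℚ) := Int.cast_le.mpr (hdualH m)
    rw [hsum m hm] at h
    push_cast at h
    rwa [(hdiff m hm).2] at h
  have hGD : G = (D : ℚ) := by
    refine le_antisymm (le_trans (b := ((Fintype.card T : ℕ) : ℚ)) ?_ ?_) ?_
    · refine lin_le (b := G - ∑ a ∈ S, (gg a : ℚ) * a)
        (b' := ∑ i : T, ((1 : ℚ) - (aL i : ℚ))) (eventually_atTop.mpr ⟨B, fun m hm => ?_⟩)
      have h := hHT m
      rw [hexp, Finset.sum_congr rfl (g := fun i : T => m - aL i + 1)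
        fun i _ => lpos_of_nonneg ((hbig m hm).2.2 i).2] at h
      have h' : ((∑ a ∈ S, gg a * lpos (m - a) : ℤ) : ℚ) ≤ ((∑ i : T, (m - aL i + 1) : ℤ) : ℚ) :=
        Int.cast_le.mpr h
      rw [hsum m hm] at h'
      push_cast at h'
      simp only [Finset.sum_add_distrib, Finset.sum_sub_distrib, Finset.sum_const,
        Finset.card_univ, nsmul_eq_mul, mul_one] at h' ⊢
      linarith
    · refine lin_le (b := ∑ i : T, ((1 : ℚ) - (P.a i : ℚ))) (b' := D + e)
        (eventually_atTop.mpr ⟨B, fun m hm => ?_⟩)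
      have h := hTN m
      rw [Finset.sum_congr rfl (g := fun i : T => m - P.a i + 1)
        fun i _ => lpos_of_nonneg ((hbig m hm).2.2 i).1] at h
      have h' : ((∑ i : T, (m - P.a i + 1) : ℤ) : ℚ) ≤
          (((finrank k (N m) : ℤ) - finrank k (N (m - 1)) : ℤ) : ℚ) := Int.cast_le.mpr h
      push_cast at h'
      rw [(hdiff m hm).1] at h'
      simp only [Finset.sum_add_distrib, Finset.sum_sub_distrib, Finset.sum_const,
        Finset.card_univ, nsmul_eq_mul, mul_one] at h' ⊢
      linarith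
    · exact lin_le (b := D + e₁) (b' := G - ∑ a ∈ S, (gg a : ℚ) * a)
        (eventually_atTop.mpr ⟨B, fun m hm => by have := hdual' m hm; linarith⟩)
  have hga : ∑ a ∈ S, (gg a : ℚ) * a ≤ 3 * (D : ℚ) + e := by
    have := hdual' B le_rfl
    rw [hGD] at this
    linarith
  have hpt : ∀ a ∈ S, (gg a : ℚ) * (lpos (n - (3 - a)) : ℚ)
      ≤ (gg a : ℚ) * ((n : ℚ) + a - 2 + g) := by
    intro a ha
    rcases le_or_gt a (2 - n₁) with h | h
    · simp [hg0 a ha h]
    · refine mul_le_mul_of_nonneg_left ?_ (by exact_mod_cast (hgg a).1)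
      have hl : lpos (n - (3 - a)) ≤ n + a - 2 + g := by
        rcases le_or_gt 0 (n - (3 - a)) with h0 | h0
        · rw [lpos_of_nonneg h0]; omega
        · rw [lpos, cpos_of_neg h0, cpos_of_neg (by omega)]; simp; omega
      exact_mod_cast hl
  have hb : (((finrank k (N n) : ℤ) - finrank k (N (n - 1)) : ℤ) : ℚ)
      ≤ ((∑ a ∈ S, gg a * lpos (n - (3 - a)) : ℤ) : ℚ) := Int.cast_le.mpr (hNbound n)
  push_cast at hb
  have hs : ∑ a ∈ S, (gg a : ℚ) * ((n : ℚ) + a - 2 + g)
      = G * ((n : ℚ) - 2 + g) + ∑ a ∈ S, (gg a : ℚ) * a := by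
    rw [hG, Finset.sum_mul, ← Finset.sum_add_distrib]
    exact Finset.sum_congr rfl fun a _ => by ring
  have := Finset.sum_le_sum hpt
  rw [hs, hGD] at this
  linarith

end Vale.Agent.P190.Hilb
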