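import Vale.Agent.P190.Hilb.Duality

/-! Existence of Hilbert polynomials, their leading coefficient, and `P ≤ H + H^`. -/

namespace Vale.Agent.P190.Hilb

open Submodule Module Filter

theorem quad_nonneg {a b c : ℚ} (h : ∀ᶠ n : ℤ in atTop, 0 ≤ a * (n : ℚ) ^ 2 + b * n + c) :
    0 ≤ a := by
  by_contra hneg
  push Not at hneg
  obtain ⟨n₀, hn₀⟩ := eventually_atTop.mp h
  obtain ⟨m, hm⟩ := exists_int_gt ((|b| + |c| + 1) / (-a))
  let n := max (max n₀ m) 1
  have h1 := hn₀ n (le_trans (le_max_left _ _) (le_max_left _ _))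
  have hn : (m : ℚ) ≤ (n : ℚ) := by
    exact_mod_cast (le_trans (le_max_right n₀ m) (le_max_left _ _))
  have hn1 : (1 : ℚ) ≤ (n : ℚ) := by exact_mod_cast (le_max_right _ _)
  rw [div_lt_iff₀ (by linarith)] at hm
  have h5 : a * (n : ℚ) + |b| + |c| < 0 := by nlinarith
  have h6 : a * (n : ℚ) ^ 2 + b * n + c ≤ n * (a * n + |b| + |c|) := by
    nlinarith [le_abs_self b, le_abs_self c, abs_nonneg c]
  nlinarith

theorem quad_eq {a b c a' b' c' : ℚ}
    (h : ∀ᶠ n : ℤ in atTop, a * (n : ℚ) ^ 2 + b * n + c ≤ a' * (n : ℚ) ^ 2 + b' * n + c') :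
    a ≤ a' := by
  have := quad_nonneg (a := a' - a) (b := b' - b) (c := c' - c)
    (h.mono fun n hn => by nlinarith)
  linarith

variable {k K : Type} [Field k] [Field K] [Algebra k K] {η ζ : K} {r : ℕ}

omit [Field K] [Algebra k K] in
theorem sum_tpoly {ι : Type} (s : Finset ι) (g : ι → ℤ) (a : ι → ℤ) (n : ℚ) :
    ∑ i ∈ s, (g i : ℚ) * tpoly (n - a i) =
      (∑ i ∈ s, (g i : ℚ)) * ((n + 2) * (n + 1) / 2)
        + (-∑ i ∈ s, (g i : ℚ) * a i) * (n + 1)
        + ∑ i ∈ s, (g i : ℚ) * ((a i : ℚ) * (a i - 1) / 2) := by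
  simp only [tpoly, neg_mul, Finset.sum_mul, ← Finset.sum_neg_distrib, ← Finset.sum_add_distrib]
  exact Finset.sum_congr rfl fun i _ => by ring

variable (hind : AlgebraicIndependent k ![η, ζ]) [FiniteDimensional (ratField k η ζ) K]
  [Algebra.IsSeparable (ratField k η ζ) K]

include hind

omit hind [Algebra.IsSeparable (ratField k η ζ) K] in
/-- A maximal independent family of generators. -/
theorem exists_indep_gens {N : ℤ → Submodule k (Fin r → K)} (hN : Fam η ζ N) :
    ∃ (ι : Type) (_ : Fintype ι) (g : ι → Fin r → K) (a : ι → ℤ),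
      (∀ i, g i ∈ N (a i)) ∧ LinearIndependent (ratField k η ζ) g ∧
      span (ratField k η ζ) (Set.range g) = ⊤ ∧
      Fintype.card ι = finrank (ratField k η ζ) (Fin r → K) := by
  obtain ⟨P⟩ := hN.exists_pres
  obtain ⟨b, hb, hspan, hli⟩ := exists_linearIndependent (ratField k η ζ) (Set.range P.g)
  have hfin : b.Finite := (Set.finite_range P.g).subset hb
  have := hfin.fintype
  choose i hi using fun x : b => hb x.2
  have hr : Set.range (fun x : b => (x : Fin r → K)) = b := Subtype.range_coe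
  refine ⟨b, inferInstance, fun x => x, fun x => P.a (i x), fun x => ?_, hli, ?_, ?_⟩
  · show (x : Fin r → K) ∈ _
    rw [← hi x]; exact P.g_mem _
  · rw [hr, hspan, P.span_g hN]
  · rw [← finrank_span_eq_card hli, hr, hspan, P.span_g hN, finrank_top]

/-- The Hilbert polynomial exists, has the rank as leading coefficient, and is bounded by
`dim N n + dim dual(-n)`. -/
theorem exists_hasPoly {N : ℤ → Submodule k (Fin r → K)} (hN : Fam η ζ N) :
    ∃ e c : ℚ, HasPoly N (finrank (ratField k η ζ) (Fin r → K) : ℚ) e c ∧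
      ∀ n : ℤ, (finrank (ratField k η ζ) (Fin r → K) : ℚ) * ((n + 2) * (n + 1) / 2)
          + e * (n + 1) + c ≤
        (finrank k (N n) : ℚ) + (finrank k (dualFam η ζ N (-n)) : ℚ) := by
  obtain ⟨S, g, hg, hdual⟩ := exists_expansion hind hN
  set D := finrank (ratField k η ζ) (Fin r → K) with hD
  set G : ℚ := ∑ a ∈ S, (g a : ℚ) with hG
  set e : ℚ := -∑ a ∈ S, (g a : ℚ) * a with he
  set c : ℚ := ∑ a ∈ S, (g a : ℚ) * ((a : ℚ) * (a - 1) / 2) with hc
  have hP : ∀ n : ℤ, G * (((n : ℚ) + 2) * (n + 1) / 2) + e * (n + 1) + c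
      = ∑ a ∈ S, (g a : ℚ) * ((cpos (n - a) : ℚ) + (cpos (-(n - a) - 3) : ℚ)) := by
    intro n
    have := sum_tpoly S g id (n : ℚ)
    simp only [id] at this
    rw [hG, he, hc, ← this]
    refine Finset.sum_congr rfl fun a _ => ?_
    rw [← tpoly_eq]
    simp
  have hpoly : HasPoly N G e c := by
    refine eventually_atTop.mpr ⟨(∑ a ∈ S, |a|) + 1, fun n hn => ?_⟩
    rw [hP, show (finrank k (N n) : ℚ) = ((finrank k (N n) : ℤ) : ℚ) by simp, hg n]
    push_cast
    refine Finset.sum_congr rfl fun a ha => ?_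
    have ha' : |a| ≤ ∑ a ∈ S, |a| := Finset.single_le_sum (fun a _ => abs_nonneg a) ha
    have := le_abs_self a
    rw [cpos_of_neg (m := -(n - a) - 3) (by omega)]
    simp
  have hfd := hN.fd
  -- lower bound by independent generators
  obtain ⟨ι, _, w, a, hw, hli, hspan, hcard⟩ := exists_indep_gens hN
  obtain ⟨A, hA⟩ := Finite.exists_le fun i : ι => |a i|
  have hlow : ∀ n, ∑ i, cpos (n - a i) ≤ finrank k (N n) := by
    intro n
    have := fd_freeFam (k := k) (η := η) (ζ := ζ) a n
    rw [← finrank_freeFam hind]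
    have hle : (freeFam (k := k) η ζ a n).map (comb k w) ≤ N n := by
      refine Submodule.map_le_iff_le_comap.mpr fun u hu => ?_
      show comb k w u ∈ N n
      rw [comb_apply]
      refine sum_mem fun i _ => ?_
      have := hN.toClosed.poly_smul (mem_freeFam.mp hu i) (hw i)
      simpa using this
    have h1 := finrank_map_add_ker (comb k w) (freeFam (k := k) η ζ a n)
    have h2 := Submodule.finrank_mono hle
    have h3 : (LinearMap.ker (comb k w) ⊓ freeFam (k := k) η ζ a n : Submodule k (ι → K)) = ⊥ := by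
      rw [eq_bot_iff]
      rintro u ⟨hu0, hu⟩
      rw [Submodule.mem_bot]
      let uE : ι → ratField k η ζ :=
        fun i => ⟨u i, polySpace_le_ratField _ (mem_freeFam.mp hu i)⟩
      have hz : ∑ i, uE i • w i = 0 := by
        have : comb k w u = 0 := hu0
        rw [comb_apply] at this
        exact this
      funext i
      exact congrArg Subtype.val (Fintype.linearIndependent_iff.mp hli uE hz i)
    rw [h3, finrank_bot] at h1
    omega
  -- upper bound by the dual
  obtain ⟨ι', _, w', a', hw', hli', hspan', hcard'⟩ := exists_indep_gens (hN.dual hind)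
  obtain ⟨A', hA'⟩ := Finite.exists_le fun i : ι' => |a' i|
  have hup : ∀ n, finrank k (N n) ≤ ∑ i, cpos (n - (3 - a' i)) := by
    intro n
    rw [← finrank_freeFam hind]
    let val : (Fin r → K) →ₗ[k] (ι' → K) :=
      { toFun := fun v i => ((pair (k := k) η ζ (w' i) v : ratField k η ζ) : K)
        map_add' := fun v v' => by funext i; simp [map_add]
        map_smul' := fun c v => by
          funext i
          rw [← algebraMap_smul (ratField k η ζ) c v, map_smul]
          simp [Algebra.smul_def] }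
    have hinj : Function.Injective val := by
      rw [injective_iff_map_eq_zero]
      intro v hv
      refine pair_injective (k := k) (η := η) (ζ := ζ) (LinearMap.ext_on hspan' ?_)
      rintro _ ⟨i, rfl⟩
      refine Subtype.ext ?_
      have h := congrFun hv i
      simp only [val, LinearMap.coe_mk, AddHom.coe_mk, pair_apply] at h
      simp only [pair_apply, LinearMap.zero_apply]
      rw [show ∑ j, v j * w' i j = ∑ j, w' i j * v j from
        Finset.sum_congr rfl fun j _ => mul_comm _ _]
      exact h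
    have := fd_freeFam (k := k) (η := η) (ζ := ζ) (fun i => 3 - a' i) n
    have hle : (N n).map val ≤ freeFam (k := k) η ζ (fun i => 3 - a' i) n := by
      refine Submodule.map_le_iff_le_comap.mpr fun v hv => mem_freeFam.mpr fun i => ?_
      have := mem_dualFam.mp (hw' i) n v hv
      rwa [show n - (3 - a' i) = a' i + n - 3 by ring]
    have h2 := Submodule.finrank_mono hle
    rwa [← ((Submodule.equivMapOfInjective val hinj (N n)).finrank_eq)] at h2
  have hGD : G = (D : ℚ) := by
    obtain ⟨n₁, hn₁⟩ := eventually_atTop.mp hpoly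
    have q : ∀ (m : ℤ), 0 ≤ m → (cpos m : ℚ) = ((m : ℚ) + 2) * ((m : ℚ) + 1) / 2 := fun m hm => by
      have h := congrArg (fun z : ℤ => (z : ℚ)) (two_mul_cpos_of_nonneg hm)
      push_cast at h
      linarith
    apply le_antisymm
    · refine le_of_mul_le_mul_right ?_ (show (0 : ℚ) < 1 / 2 by norm_num)
      refine quad_eq (b := 3 * G / 2 + e) (c := G + e + c)
        (b' := (D : ℚ) * (2 * (A' + 3 : ℤ) + 3) / 2)
        (c' := (D : ℚ) * (((A' + 3 : ℤ) : ℚ) + 2) * (((A' + 3 : ℤ) : ℚ) + 1) / 2) ?_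
      refine eventually_atTop.mpr ⟨max (max n₁ (A' + 3)) 0, fun n hn => ?_⟩
      have h1 := hn₁ n (le_trans (le_trans (le_max_left _ _) (le_max_left _ _)) hn)
      have hnA : A' + 3 ≤ n := le_trans (le_trans (le_max_right _ _) (le_max_left _ _)) hn
      have hn0 : (0 : ℤ) ≤ n := le_trans (le_max_right _ _) hn
      have h2 : (finrank k (N n) : ℚ) ≤ ∑ i, (cpos (n - (3 - a' i)) : ℚ) := by exact_mod_cast hup n
      have h3 : ∀ i, (cpos (n - (3 - a' i)) : ℚ) ≤
          (((n + (A' + 3) : ℤ) : ℚ) + 2) * (((n + (A' + 3) : ℤ) : ℚ) + 1) / 2 := fun i => by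
        have := hA' i
        have := le_abs_self (a' i)
        have := neg_abs_le (a' i)
        rw [← q (n + (A' + 3)) (by omega)]
        exact_mod_cast Nat.choose_le_choose 2 (by omega)
      have h4 := Finset.sum_le_sum (s := Finset.univ) fun i _ => h3 i
      simp only [Finset.sum_const, Finset.card_univ, hcard', nsmul_eq_mul, ← hD] at h4
      push_cast at h1 h2 h4 ⊢
      nlinarith
    · refine le_of_mul_le_mul_right ?_ (show (0 : ℚ) < 1 / 2 by norm_num)
      refine quad_eq (b' := 3 * G / 2 + e) (c' := G + e + c)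
        (b := (D : ℚ) * (-2 * (A : ℚ) + 3) / 2)
        (c := (D : ℚ) * (-(A : ℚ) + 2) * (-(A : ℚ) + 1) / 2) ?_
      refine eventually_atTop.mpr ⟨max (max n₁ A) 0, fun n hn => ?_⟩
      have h1 := hn₁ n (le_trans (le_trans (le_max_left _ _) (le_max_left _ _)) hn)
      have hnA : A ≤ n := le_trans (le_trans (le_max_right _ _) (le_max_left _ _)) hn
      have h2 : (∑ i, (cpos (n - a i) : ℚ)) ≤ (finrank k (N n) : ℚ) := by exact_mod_cast hlow n
      have h3 : ∀ i, (((n - A : ℤ) : ℚ) + 2) * (((n - A : ℤ) : ℚ) + 1) / 2 ≤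
          (cpos (n - a i) : ℚ) := fun i => by
        have := hA i
        have := le_abs_self (a i)
        rw [← q (n - A) (by omega)]
        exact_mod_cast Nat.choose_le_choose 2 (by omega)
      have h4 := Finset.sum_le_sum (s := Finset.univ) fun i _ => h3 i
      simp only [Finset.sum_const, Finset.card_univ, hcard, nsmul_eq_mul, ← hD] at h4
      push_cast at h1 h2 h4 ⊢
      nlinarith
  refine ⟨e, c, hGD ▸ hpoly, fun n => ?_⟩
  rw [← hGD, hP n]
  have h1 := congrArg (fun z : ℤ => (z : ℚ)) (hg n)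
  have h2 : ((∑ a ∈ S, g a * cpos (-n - (3 - a)) : ℤ) : ℚ) ≤
      ((finrank k (dualFam η ζ N (-n)) : ℤ) : ℚ) := Int.cast_le.mpr (hdual (-n))
  push_cast at h1 h2
  rw [h1]
  simp only [mul_add, Finset.sum_add_distrib]
  simp only [show ∀ a : ℤ, -(n - a) - 3 = -n - (3 - a) from fun a => by ring]
  linarith

end Vale.Agent.P190.Hilb
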