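import Vale.Agent.P190.Hilb.Free

/-! Finitely generated saturated families: presentations and dual families. -/

namespace Vale.Agent.P190.Hilb

open Submodule Module

variable {k K : Type} [Field k] [Field K] [Algebra k K] {η ζ : K} {r : ℕ}

/-- A finitely generated family of full rank in which `x, η` is a regular sequence. -/
structure Fam (η ζ : K) {r : ℕ} (N : ℤ → Submodule k (Fin r → K)) : Prop
    extends Closed η ζ N where
  fd : ∀ n, FiniteDimensional k (N n)
  below : ∃ n₀, ∀ n < n₀, N n = ⊥
  sat : ∀ n, ∀ v ∈ N (n + 1), η • v ∈ N (n + 1) → v ∈ N n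
  gen : ∃ b, ∀ n ≥ b, N (n + 1) = N n ⊔ (N n).map (smulE k η) ⊔ (N n).map (smulE k ζ)
  spanE : span (ratField k η ζ) (⋃ n, (N n : Set (Fin r → K))) = ⊤

/-- The combination map of a finite family. -/
noncomputable def comb (k : Type) {K : Type} [Field k] [Field K] [Algebra k K] {ι : Type}
    [Fintype ι] {r : ℕ} (g : ι → Fin r → K) : (ι → K) →ₗ[k] (Fin r → K) :=
  (Fintype.linearCombination K g).restrictScalars k

theorem comb_apply {ι : Type} [Fintype ι] (g : ι → Fin r → K) (u : ι → K) :
    comb k g u = ∑ i, u i • g i := by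
  simp [comb, Fintype.linearCombination_apply]

theorem comb_smul {ι : Type} [Fintype ι] (g : ι → Fin r → K) (c : K) (u : ι → K) :
    comb k g (c • u) = c • comb k g u := by
  simp [comb]

/-- A finite presentation of a family by a free family. -/
structure Pres (η ζ : K) (N : ℤ → Submodule k (Fin r → K)) where
  /-- The index type. -/
  ι : Type
  /-- It is finite. -/
  [fin : Fintype ι]
  /-- The generators. -/
  g : ι → Fin r → K
  /-- Their degrees. -/
  a : ι → ℤ
  img : ∀ n, (freeFam (k := k) η ζ a n).map (comb k g) = N n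

attribute [instance] Pres.fin

theorem Fam.exists_pres {N : ℤ → Submodule k (Fin r → K)} (hN : Fam η ζ N) :
    Nonempty (Pres η ζ N) := by
  classical
  obtain ⟨n₀, hn₀⟩ := hN.below
  obtain ⟨b, hb⟩ := hN.gen
  have := hN.fd
  let S := Finset.Icc n₀ b
  refine ⟨{ ι := Σ j : S, Fin (finrank k (N j))
            g := fun i => (Module.finBasis k (N i.1) i.2 : Fin r → K)
            a := fun i => (i.1 : ℤ)
            img := fun n => ?_ }⟩
  set g := fun i : (Σ j : S, Fin (finrank k (N j))) => (Module.finBasis k (N i.1) i.2 : Fin r → K)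
  set a := fun i : (Σ j : S, Fin (finrank k (N j))) => ((i.1 : S) : ℤ)
  apply le_antisymm
  · rintro _ ⟨u, hu, rfl⟩
    rw [comb_apply]
    refine sum_mem fun i _ => ?_
    have := hN.toClosed.poly_smul (mem_freeFam.mp hu i) (Module.finBasis k (N i.1) i.2).2
    simpa [a, g] using this
  · have hcl := freeFam_closed (k := k) (η := η) (ζ := ζ) a
    have base : ∀ n ≤ b, N n ≤ (freeFam (k := k) η ζ a n).map (comb k g) := by
      intro n hn
      rcases lt_or_ge n n₀ with h | h
      · rw [hn₀ n h]; exact bot_le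
      · intro v hv
        let j : S := ⟨n, Finset.mem_Icc.mpr ⟨h, hn⟩⟩
        have hv' := (Module.finBasis k (N j)).sum_repr ⟨v, hv⟩
        replace hv' := congrArg (fun x : N j => (x : Fin r → K)) hv'
        simp only [Submodule.coe_sum, Submodule.coe_smul] at hv'
        rw [← hv']
        refine sum_mem fun l _ => Submodule.smul_mem _ _ ⟨Pi.single ⟨j, l⟩ 1, ?_, ?_⟩
        · refine mem_freeFam.mpr fun i => ?_
          rcases eq_or_ne i ⟨j, l⟩ with rfl | hi
          · simpa [a, j] using one_mem_poly (k := k) (η := η) (ζ := ζ) (m := n - n) (by omega)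
          · simp [hi]
        · rw [comb_apply, Finset.sum_eq_single ⟨j, l⟩ (fun i _ hi => by simp [hi]) (by simp)]
          simp [g]
    rcases le_or_gt n b with hn | hn
    · exact base n hn
    · induction n, hn.le using Int.leInduction with
      | base => exact base b le_rfl
      | succ n hbn ih =>
        have ih' : N n ≤ (freeFam (k := k) η ζ a n).map (comb k g) := by
          rcases le_or_gt n b with h | h
          · exact base n h
          · exact ih h
        rw [hb n hbn]
        refine sup_le (sup_le (ih'.trans (Submodule.map_mono (hcl.mono n))) ?_) ?_ <;>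
          · rintro _ ⟨v, hv, rfl⟩
            obtain ⟨u, hu, rfl⟩ := ih' hv
            exact ⟨_, by first | exact hcl.eta n u hu | exact hcl.zeta n u hu, comb_smul g _ u⟩

namespace Pres

variable {N : ℤ → Submodule k (Fin r → K)} (P : Pres η ζ N)

theorem g_mem (i : P.ι) : P.g i ∈ N (P.a i) := by
  classical
  rw [← P.img]
  refine ⟨Pi.single i 1, mem_freeFam.mpr fun j => ?_, ?_⟩
  · rcases eq_or_ne j i with rfl | hj
    · simpa using one_mem_poly (k := k) (η := η) (ζ := ζ) (m := P.a j - P.a j) (by omega)
    · simp [hj]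
  · rw [comb_apply, Finset.sum_eq_single i (fun j _ hj => by simp [hj]) (by simp)]
    simp

theorem pair_comb {ι : Type} [Fintype ι] (g : ι → Fin r → K) (w : Fin r → K) {u : ι → K}
    (hu : ∀ i, u i ∈ ratField k η ζ) :
    ((pair (k := k) η ζ w (comb k g u) : ratField k η ζ) : K) =
      ∑ i, u i * pair (k := k) η ζ w (g i) := by
  have : comb k g u = ∑ i, (⟨u i, hu i⟩ : ratField k η ζ) • g i := by
    rw [comb_apply]; rfl
  rw [this, map_sum, IntermediateField.coe_sum]
  refine Finset.sum_congr rfl fun i _ => ?_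
  rw [map_smul]; rfl

theorem mem_dual_iff {n : ℤ} {w : Fin r → K} :
    w ∈ dualFam η ζ N n ↔
      ∀ i, ((pair (k := k) η ζ w (P.g i) : ratField k η ζ) : K)
        ∈ polySpace (k := k) η ζ (n + P.a i - 3) := by
  rw [mem_dualFam]
  refine ⟨fun h i => h _ _ (P.g_mem i), fun h j v hv => ?_⟩
  rw [← P.img] at hv
  obtain ⟨u, hu, rfl⟩ := hv
  rw [pair_comb P.g w fun i => polySpace_le_ratField _ (mem_freeFam.mp hu i)]
  refine sum_mem fun i _ => ?_
  rw [show n + j - 3 = (j - P.a i) + (n + P.a i - 3) by ring]
  exact mul_mem_polySpace (mem_freeFam.mp hu i) (h i)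

/-- The values of a functional on the generators. -/
noncomputable def values : (Fin r → K) →ₗ[k] (P.ι → K) where
  toFun w i := ((pair (k := k) η ζ w (P.g i) : ratField k η ζ) : K)
  map_add' w w' := by
    funext i
    simp [pair_apply, add_mul, Finset.sum_add_distrib]
  map_smul' c w := by
    funext i
    have hc : algebraMap k K c ∈ ratField k η ζ := IntermediateField.algebraMap_mem _ c
    have := pair_smul_left (η := η) (ζ := ζ) hc w (P.g i)
    rw [algebraMap_smul] at this
    simp only [Pi.smul_apply, RingHom.id_apply, Algebra.smul_def (A := K)]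
    exact this

theorem values_mem {n : ℤ} {w : Fin r → K} (hw : w ∈ dualFam η ζ N n) :
    P.values w ∈ freeFam (k := k) η ζ (fun i => 3 - P.a i) n :=
  mem_freeFam.mpr fun i => by
    rw [show n - (3 - P.a i) = n + P.a i - 3 by ring]
    exact P.mem_dual_iff.mp hw i

theorem span_g (hN : Fam η ζ N) :
    span (ratField k η ζ) (Set.range P.g) = ⊤ := by
  rw [eq_top_iff, ← hN.spanE, span_le]
  rintro v hv
  obtain ⟨n, hn⟩ := Set.mem_iUnion.mp hv
  rw [SetLike.mem_coe, ← P.img] at hn
  obtain ⟨u, hu, rfl⟩ := hn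
  rw [comb_apply]
  refine sum_mem fun i _ => ?_
  exact Submodule.smul_mem (span (ratField k η ζ) (Set.range P.g))
    (⟨u i, polySpace_le_ratField _ (mem_freeFam.mp hu i)⟩ : ratField k η ζ) (subset_span ⟨i, rfl⟩)

theorem values_injective (hN : Fam η ζ N) [FiniteDimensional (ratField k η ζ) K]
    [Algebra.IsSeparable (ratField k η ζ) K] : Function.Injective P.values := by
  rw [injective_iff_map_eq_zero]
  intro w hw
  refine pair_injective (LinearMap.ext_on (P.span_g hN) ?_)
  rintro _ ⟨i, rfl⟩
  exact Subtype.ext (congrFun hw i)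

end Pres

variable [FiniteDimensional (ratField k η ζ) K] [Algebra.IsSeparable (ratField k η ζ) K]

omit [FiniteDimensional (ratField k η ζ) K] [Algebra.IsSeparable (ratField k η ζ) K] in
theorem Fam.dual_spanE {N : ℤ → Submodule k (Fin r → K)} (hN : Fam η ζ N) :
    span (ratField k η ζ) (⋃ n, (dualFam η ζ N n : Set (Fin r → K))) = ⊤ := by
  classical
  obtain ⟨P⟩ := hN.exists_pres
  rw [eq_top_iff]
  intro w _
  choose e q hq hq0 hqv using fun i : P.ι =>
    exists_denom (η := η) (ζ := ζ) (k := k) (pair (k := k) η ζ w (P.g i)).2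
  let Q : K := ∏ i, q i
  let m : ℤ := ∑ i, (e i : ℤ)
  have hQ0 : Q ≠ 0 := Finset.prod_ne_zero_iff.mpr fun i _ => hq0 i
  have hpr : ∀ s : Finset P.ι, ∏ i ∈ s, q i ∈ polySpace (k := k) η ζ (∑ i ∈ s, (e i : ℤ)) := by
    intro s
    induction s using Finset.induction_on with
    | empty => simpa using one_mem_poly le_rfl
    | insert i s hi ih =>
      rw [Finset.prod_insert hi, Finset.sum_insert hi]
      exact mul_mem_polySpace (hq i) ih
  have hQ : Q ∈ ratField k η ζ := polySpace_le_ratField _ (hpr Finset.univ)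
  obtain ⟨c, hc⟩ := Finite.exists_le fun i : P.ι => -P.a i
  have hmem : Q • w ∈ dualFam η ζ N (m + c + 3) := by
    refine P.mem_dual_iff.mpr fun i => polySpace_mono (m := m)
      (by have := hc i; omega) ?_
    rw [pair_smul_left hQ]
    have h1 := mul_mem_polySpace (hqv i) (hpr (Finset.univ.erase i))
    rw [Finset.add_sum_erase _ (fun i => (e i : ℤ)) (Finset.mem_univ i)] at h1
    convert h1 using 1
    rw [show Q = q i * ∏ j ∈ Finset.univ.erase i, q j from
      (Finset.mul_prod_erase _ _ (Finset.mem_univ i)).symm]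
    ring
  have hv : Q • w ∈ span (ratField k η ζ) (⋃ n, (dualFam η ζ N n : Set (Fin r → K))) :=
    subset_span (Set.mem_iUnion.mpr ⟨_, hmem⟩)
  have := Submodule.smul_mem _ (⟨Q, hQ⟩ : ratField k η ζ)⁻¹ hv
  convert this using 1
  show w = ((⟨Q, hQ⟩ : ratField k η ζ)⁻¹ : ratField k η ζ).1 • Q • w
  rw [smul_smul]
  simp [hQ0]

theorem Fam.dual (hind : AlgebraicIndependent k ![η, ζ]) {N : ℤ → Submodule k (Fin r → K)}
    (hN : Fam η ζ N) : Fam η ζ (dualFam η ζ N) := by
  classical
  obtain ⟨P⟩ := hN.exists_pres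
  have hinj := P.values_injective hN
  have hcl := dualFam_closed (η := η) (ζ := ζ) N
  have hfree : ∀ n, FiniteDimensional k (freeFam (k := k) η ζ (fun i => 3 - P.a i) n) := by
    intro n
    have : ∀ i, FiniteDimensional k (polySpace (k := k) η ζ (n - (3 - P.a i))) := fun i => by
      rcases lt_or_ge (n - (3 - P.a i)) 0 with h | h
      · rw [polySpace_neg h]; infer_instance
      · obtain ⟨l, hl⟩ := Int.eq_ofNat_of_zero_le h
        rw [hl, polySpace_eq_map]; infer_instance
    exact Module.Finite.equiv (M := ∀ i, polySpace (k := k) η ζ (n - (3 - P.a i)))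
      { toFun := fun f => ⟨fun i => f i, mem_freeFam.mpr fun i => (f i).2⟩
        invFun := fun f i => ⟨f.1 i, mem_freeFam.mp f.2 i⟩
        map_add' := fun _ _ => rfl
        map_smul' := fun _ _ => rfl }
  have hmap : ∀ n, (dualFam η ζ N n).map P.values ≤ freeFam (k := k) η ζ (fun i => 3 - P.a i) n :=
    fun n => Submodule.map_le_iff_le_comap.mpr fun w hw => P.values_mem hw
  have hsm : ∀ e ∈ ({η, ζ} : Set K), ∀ w, P.values (e • w) = e • P.values w := fun e he w => by
    funext i
    exact pair_smul_left (IntermediateField.subset_adjoin k _ he) w (P.g i)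
  have hW : Closed η ζ fun n => (dualFam η ζ N n).map P.values :=
    { mono := fun n => Submodule.map_mono (hcl.mono n)
      eta := fun n _ ⟨w, hw, e⟩ => ⟨η • w, hcl.eta n w hw, by rw [hsm η (by simp), e]⟩
      zeta := fun n _ ⟨w, hw, e⟩ => ⟨ζ • w, hcl.zeta n w hw, by rw [hsm ζ (by simp), e]⟩ }
  refine ⟨hcl, fun n => ?_, ?_, fun n v hv hv' => dualFam_sat hind hv hv', ?_, hN.dual_spanE⟩
  · have := hfree n
    have := Submodule.finiteDimensional_of_le (hmap n)
    exact Module.Finite.equiv (Submodule.equivMapOfInjective P.values hinj _).symm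
  · obtain ⟨c, hc⟩ := Finite.exists_le fun i : P.ι => P.a i
    refine ⟨3 - c, fun n hn => ?_⟩
    rw [eq_bot_iff]
    intro w hw
    rw [Submodule.mem_bot]
    refine hinj ?_
    funext i
    have h := mem_freeFam.mp (P.values_mem hw) i
    rw [polySpace_neg (by have := hc i; omega), Submodule.mem_bot] at h
    simpa using h
  · obtain ⟨b, hb⟩ := exists_gen_of_le_free hW hmap
    refine ⟨b, fun n hn => Submodule.map_injective_of_injective hinj ?_⟩
    rw [hb n hn, Submodule.map_sup, Submodule.map_sup, ← Submodule.map_comp, ← Submodule.map_comp,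
      ← Submodule.map_comp, ← Submodule.map_comp]
    congr 1
    · congr 2
      exact LinearMap.ext fun w => (hsm η (by simp) w).symm
    · congr 1
      exact LinearMap.ext fun w => (hsm ζ (by simp) w).symm

end Vale.Agent.P190.Hilb
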