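import Vale.Agent.P190.Hilb.Top

/-! For a reflexive family the Hilbert polynomial of the dual is `n ↦ P(-n)`. -/

namespace Vale.Agent.P190.Hilb

open Submodule Module Filter

variable {k K : Type} [Field k] [Field K] [Algebra k K] {η ζ : K} {r : ℕ}

variable (hind : AlgebraicIndependent k ![η, ζ]) [FiniteDimensional (ratField k η ζ) K]
  [Algebra.IsSeparable (ratField k η ζ) K]

include hind

/-- For a reflexive family `P_dual(n) = P(-n)`. -/
theorem dual_hasPoly {N : ℤ → Submodule k (Fin r → K)} (hN : Fam η ζ N)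
    (hrefl : ∀ n, dualFam η ζ (dualFam η ζ N) n ≤ N n) {D e c : ℚ}
    (hD : D = finrank (ratField k η ζ) (Fin r → K)) (hP : HasPoly N D e c) :
    HasPoly (dualFam η ζ N) D (-3 * D - e) (3 * D + 2 * e + c) := by
  classical
  obtain ⟨e₀, c₀, hP₀, hb₀⟩ := exists_hasPoly hind hN
  obtain ⟨e₁, c₁, hP₁, hb₁⟩ := exists_hasPoly hind (hN.dual hind)
  subst hD
  set D : ℚ := (finrank (ratField k η ζ) (Fin r → K) : ℚ) with hD
  obtain ⟨rfl, rfl⟩ : e = e₀ ∧ c = c₀ := by
    obtain ⟨n₁, hn⟩ := eventually_atTop.mp (hP.and hP₀)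
    have h1 := hn n₁ le_rfl
    have h2 := hn (n₁ + 1) (by omega)
    push_cast at h1 h2
    obtain rfl : e = e₀ := by linarith [h1.1, h1.2, h2.1, h2.2]
    exact ⟨rfl, by linarith [h1.1, h1.2]⟩
  obtain ⟨P⟩ := hN.exists_pres
  have hfdN := hN.fd
  have hfdD := (hN.dual hind).fd
  set aL : P.ι → ℤ := fun i => 3 - P.a i with haL
  obtain ⟨S, g, -, hexp, hdualH, hNbound, T, hTN, hHT⟩ := exists_topData hind hN hrefl P
  obtain ⟨A, hA⟩ := Finite.exists_le fun i : P.ι => |P.a i|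
  -- counting
  set G : ℚ := ∑ a ∈ S, (g a : ℚ) with hG
  set B : ℤ := |A| + (∑ a ∈ S, |a|) + 3 with hB
  obtain ⟨n₀, hn₀⟩ := eventually_atTop.mp hP
  obtain ⟨n₁, hn₁⟩ := eventually_atTop.mp hP₁
  let n₂ := max (max n₀ n₁) B + 1
  have hbig : ∀ n ≥ n₂, n₀ ≤ n - 1 ∧ n₁ ≤ n - 1 ∧ B ≤ n - 1 := fun n hn => by
    have := le_max_left (max n₀ n₁) B
    have := le_max_left n₀ n₁
    have := le_max_right n₀ n₁
    have := le_max_right (max n₀ n₁) B
    refine ⟨?_, ?_, ?_⟩ <;> omega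
  have hS1 : ∀ n ≥ n₂, ∀ a ∈ S, 0 ≤ n - a ∧ 0 ≤ n - (3 - a) := fun n hn a ha => by
    have h1 : |a| ≤ ∑ a ∈ S, |a| := Finset.single_le_sum (fun a _ => abs_nonneg a) ha
    have := (hbig n hn).2.2
    have := abs_nonneg A
    have := le_abs_self a
    have := neg_abs_le a
    constructor <;> omega
  have hsum1 : ∀ n ≥ n₂, ((∑ a ∈ S, g a * lpos (n - a) : ℤ) : ℚ)
      = G * ((n : ℚ) + 1) - ∑ a ∈ S, (g a : ℚ) * a := fun n hn => by
    rw [Finset.sum_congr rfl fun a ha => by rw [lpos_of_nonneg (hS1 n hn a ha).1]]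
    push_cast
    rw [hG, Finset.sum_mul, ← Finset.sum_sub_distrib]
    exact Finset.sum_congr rfl fun a _ => by ring
  have hsum2 : ∀ n ≥ n₂, ((∑ a ∈ S, g a * lpos (n - (3 - a)) : ℤ) : ℚ)
      = G * ((n : ℚ) - 2) + ∑ a ∈ S, (g a : ℚ) * a := fun n hn => by
    rw [Finset.sum_congr rfl fun a ha => by rw [lpos_of_nonneg (hS1 n hn a ha).2]]
    push_cast
    rw [hG, Finset.sum_mul, ← Finset.sum_add_distrib]
    exact Finset.sum_congr rfl fun a _ => by ring
  have hdiff : ∀ n ≥ n₂, ((finrank k (N n) : ℚ) - finrank k (N (n - 1)) = D * ((n : ℚ) + 1) + e) ∧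
      ((finrank k (dualFam η ζ N n) : ℚ) - finrank k (dualFam η ζ N (n - 1))
        = D * ((n : ℚ) + 1) + e₁) := fun n hn => by
    obtain ⟨h0, h1, -⟩ := hbig n hn
    rw [hn₀ n (by omega), hn₀ (n - 1) h0, hn₁ n (by omega), hn₁ (n - 1) h1]
    push_cast
    constructor <;> ring
  have hTa : ∀ n ≥ n₂, ∀ i : T, 0 ≤ n - P.a i ∧ 0 ≤ n - aL i := fun n hn i => by
    have := (hbig n hn).2.2
    have := hA i
    have := le_abs_self (P.a i)
    have := neg_abs_le (P.a i)
    have := le_abs_self A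
    simp only [haL]
    constructor <;> (have := Finset.sum_nonneg (s := S) fun a _ => abs_nonneg a; omega)
  have hcard : G ≤ D := by
    refine le_trans (b := ((Fintype.card T : ℕ) : ℚ)) ?_ ?_
    · refine lin_le (b := G - ∑ a ∈ S, (g a : ℚ) * a)
        (b' := ∑ i : T, ((1 : ℚ) - (aL i : ℚ))) (eventually_atTop.mpr ⟨n₂, fun n hn => ?_⟩)
      have h := hHT n
      rw [hexp, Finset.sum_congr rfl (g := fun i : T => n - aL i + 1)
        fun i _ => lpos_of_nonneg (hTa n hn i).2] at h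
      have h' : ((∑ a ∈ S, g a * lpos (n - a) : ℤ) : ℚ) ≤ ((∑ i : T, (n - aL i + 1) : ℤ) : ℚ) :=
        Int.cast_le.mpr h
      rw [hsum1 n hn] at h'
      push_cast at h'
      simp only [Finset.sum_add_distrib, Finset.sum_sub_distrib, Finset.sum_const,
        Finset.card_univ, nsmul_eq_mul, mul_one] at h' ⊢
      linarith
    · refine lin_le (b := ∑ i : T, ((1 : ℚ) - (P.a i : ℚ))) (b' := D + e)
        (eventually_atTop.mpr ⟨n₂, fun n hn => ?_⟩)
      have h := hTN n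
      rw [Finset.sum_congr rfl (g := fun i : T => n - P.a i + 1)
        fun i _ => lpos_of_nonneg (hTa n hn i).1] at h
      have h' : ((∑ i : T, (n - P.a i + 1) : ℤ) : ℚ) ≤
          (((finrank k (N n) : ℤ) - finrank k (N (n - 1)) : ℤ) : ℚ) := Int.cast_le.mpr h
      push_cast at h'
      rw [(hdiff n hn).1] at h'
      simp only [Finset.sum_add_distrib, Finset.sum_sub_distrib, Finset.sum_const,
        Finset.card_univ, nsmul_eq_mul, mul_one] at h' ⊢
      linarith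
  have hup : e₁ + e ≤ -3 * D := by
    let n := max n₂ 1
    have hn : n₂ ≤ n := le_max_left _ _
    have h1 : (((finrank k (N n) : ℤ) - finrank k (N (n - 1)) : ℤ) : ℚ) ≤
        ((∑ a ∈ S, g a * lpos (n - (3 - a)) : ℤ) : ℚ) := Int.cast_le.mpr (hNbound n)
    have h2 : (((finrank k (dualFam η ζ N n) : ℤ) - finrank k (dualFam η ζ N (n - 1)) : ℤ) : ℚ) ≤
        ((∑ a ∈ S, g a * lpos (n - a) : ℤ) : ℚ) := Int.cast_le.mpr (hdualH n)
    rw [hsum2 n hn] at h1
    rw [hsum1 n hn] at h2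
    push_cast at h1 h2
    rw [(hdiff n hn).1] at h1
    rw [(hdiff n hn).2] at h2
    have h1n : (1 : ℚ) ≤ (n : ℚ) := by exact_mod_cast le_max_right n₂ 1
    nlinarith
  -- the two bounds at infinity
  obtain ⟨nb, hnb⟩ := hN.below
  obtain ⟨nd, hnd⟩ := (hN.dual hind).below
  have hddlow : ∀ n < nb, dualFam η ζ (dualFam η ζ N) n = ⊥ := fun n hn =>
    eq_bot_iff.mpr ((hrefl n).trans (hnb n hn).le)
  have key1 : ∀ᶠ n : ℤ in atTop, 0 ≤ (e₁ + 3 * D + e) * (n : ℚ) + (c₁ - c - 3 * D - 2 * e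
      + (e₁ + 3 * D + e)) := by
    refine eventually_atTop.mpr ⟨max (max n₁ (1 - nb)) 0, fun n hn => ?_⟩
    have hn' := max_le_iff.mp (max_le_iff.mp hn).1
    have h := hb₀ (-n)
    rw [neg_neg, hnb (-n) (by omega), finrank_bot, hn₁ n hn'.1] at h
    push_cast at h ⊢
    linarith
  have key2 : ∀ᶠ n : ℤ in atTop, 0 ≤ (e₁ + 3 * D + e) * (n : ℚ) + (-c₁ + c + 3 * D + 2 * e
      - (e₁ + 3 * D + e)) := by
    refine eventually_atTop.mpr ⟨max (max n₀ (1 - nd)) 0, fun n hn => ?_⟩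
    have hn' := max_le_iff.mp (max_le_iff.mp hn).1
    have h := hb₁ (-n)
    rw [neg_neg, hnd (-n) (by omega), finrank_bot] at h
    have hle : (finrank k (dualFam η ζ (dualFam η ζ N) n) : ℚ) ≤ (finrank k (N n) : ℚ) := by
      exact_mod_cast Submodule.finrank_mono (hrefl n)
    rw [hn₀ n hn'.1] at hle
    push_cast at h hle ⊢
    linarith
  have he : e₁ = -3 * D - e := by
    have := lin_le (b := 0) (a := 0) (a' := e₁ + 3 * D + e)
      (b' := c₁ - c - 3 * D - 2 * e + (e₁ + 3 * D + e)) (key1.mono fun n hn => by linarith)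
    linarith
  have hc : c₁ = 3 * D + 2 * e + c := by
    obtain ⟨n, h1, h2⟩ := (key1.and key2).exists
    subst he
    ring_nf at h1 h2
    linarith
  subst he hc
  exact hP₁

end Vale.Agent.P190.Hilb
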