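import Vale.Agent.P190.Hilb.Poly2

/-! Top forms: the two-variable hom family and its generators. -/

namespace Vale.Agent.P190.Hilb

open Submodule Module Filter

theorem lin_le {a b a' b' : ℚ} (h : ∀ᶠ n : ℤ in atTop, a * (n : ℚ) + b ≤ a' * n + b') : a ≤ a' := by
  have := quad_nonneg (a := a' - a) (b := b' - b) (c := 0)
    ((h.and (eventually_ge_atTop (0 : ℤ))).mono fun n ⟨hn, h0⟩ => by
      have : (0 : ℚ) ≤ (n : ℚ) := by exact_mod_cast h0
      nlinarith)
  linarith

/-- The number of monomials of degree `m` in two variables. -/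
def lpos (m : ℤ) : ℤ := (cpos m : ℤ) - cpos (m - 1)

theorem lpos_of_nonneg {m : ℤ} (h : 0 ≤ m) : lpos m = m + 1 := cpos_sub_pred m h

theorem dif2_lpos (a n : ℤ) :
    dif (dif fun j => lpos (j - a)) n = if n = a then 1 else 0 := by
  rw [← dif3_cpos a n]
  simp only [dif, lpos]
  simp only [show ∀ j : ℤ, j - a - 1 = j - 1 - a from fun j => by ring]

theorem eq_sum_lpos {h g : ℤ → ℤ} {b : ℤ} (hb : ∀ n < b, h n = 0) (S : Finset ℤ)
    (hS : ∀ n ∉ S, g n = 0) (hS' : ∀ a ∈ S, b ≤ a)
    (hd : ∀ n, dif (dif h) n = g n) (n : ℤ) : h n = ∑ a ∈ S, g a * lpos (n - a) := by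
  set f : ℤ → ℤ := fun n => h n - ∑ a ∈ S, g a * lpos (n - a) with hf
  have hf0 : ∀ j < b, f j = 0 := fun j hj => by
    simp only [hf, hb j hj, zero_sub, neg_eq_zero]
    refine Finset.sum_eq_zero fun a ha => ?_
    have := hS' a ha
    rw [lpos, cpos_of_neg (by omega), cpos_of_neg (by omega)]
    simp
  have h1 : ∀ j < b, dif f j = 0 := fun j hj => by
    simp [dif, hf0 j hj, hf0 (j - 1) (by omega)]
  have h2 : ∀ j, dif (dif f) j = 0 := by
    intro j
    have e : dif (dif f) j = dif (dif h) j - ∑ a ∈ S, g a * dif (dif fun i => lpos (i - a)) j := by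
      simp only [dif, hf, mul_sub, Finset.sum_sub_distrib]
      ring
    rw [e, hd]
    simp only [dif2_lpos, mul_ite, mul_one, mul_zero, Finset.sum_ite_eq]
    split_ifs with hj
    · simp
    · simp [hS j hj]
  have := eq_zero_of_dif hf0 (eq_zero_of_dif h1 h2) n
  simp only [hf] at this
  linarith

section Lin

variable {k M M' : Type} [Field k] [AddCommGroup M] [Module k M] [AddCommGroup M'] [Module k M']

theorem qdim_preimage_le (f : M →ₗ[k] M') {L : Submodule k M} {T T' : Submodule k M'}
    [FiniteDimensional k L] [FiniteDimensional k T] (hT' : T' ≤ T) (hL : L.map f ≤ T) :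
    (finrank k L : ℤ) - finrank k (L ⊓ T'.comap f : Submodule k M) ≤
      (finrank k T : ℤ) - finrank k T' := by
  have : FiniteDimensional k T' := Submodule.finiteDimensional_of_le hT'
  have : FiniteDimensional k (L ⊓ T'.comap f : Submodule k M) :=
    Submodule.finiteDimensional_of_le inf_le_left
  have h1 : finrank k (L.map f ⊔ T' : Submodule k M') + finrank k (L.map f ⊓ T' : Submodule k M')
      = finrank k (L.map f) + finrank k T' := Submodule.finrank_sup_add_finrank_inf_eq _ _
  have h2 := Submodule.finrank_mono (sup_le hL hT')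
  have h3 : L.map f ⊓ T' = (L ⊓ T'.comap f).map f := le_antisymm
    (by rintro _ ⟨⟨v, hv, rfl⟩, ht⟩; exact ⟨v, ⟨hv, ht⟩, rfl⟩)
    (by rintro _ ⟨v, ⟨hv, ht⟩, rfl⟩; exact ⟨⟨v, hv, rfl⟩, ht⟩)
  have h4 := finrank_map_add_ker f L
  have h5 := finrank_map_add_ker f (L ⊓ T'.comap f)
  have h6 : (LinearMap.ker f ⊓ (L ⊓ T'.comap f) : Submodule k M) = LinearMap.ker f ⊓ L :=
    le_antisymm (inf_le_inf_left _ inf_le_left)
      (le_inf inf_le_left (le_inf inf_le_right fun x hx => by
        show f x ∈ T'
        rw [show f x = 0 from hx.1]; exact zero_mem _))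
  rw [h3] at h1
  rw [h6] at h5
  omega

theorem qdim_map_le (f : M →ₗ[k] M') {L G : Submodule k M} [FiniteDimensional k L]
    (hG : G ≤ L) {B : Submodule k M'} [FiniteDimensional k B] (hB : G.map f ≤ B) :
    (finrank k (L.map f) : ℤ) - finrank k B ≤ (finrank k L : ℤ) - finrank k G := by
  have : FiniteDimensional k G := Submodule.finiteDimensional_of_le hG
  have h1 := finrank_map_add_ker f L
  have h2 := finrank_map_add_ker f G
  have h3 : finrank k (LinearMap.ker f ⊓ G : Submodule k M)
      ≤ finrank k (LinearMap.ker f ⊓ L : Submodule k M) :=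
    Submodule.finrank_mono (inf_le_inf_left _ hG)
  have h4 := Submodule.finrank_mono hB
  omega

end Lin

variable {k K : Type} [Field k] [Field K] [Algebra k K] {η ζ : K} {r : ℕ}

/-- The bilinear pairing on coordinate vectors. -/
noncomputable def dotMap (k : Type) {K : Type} [Field k] [Field K] [Algebra k K] {ι : Type}
    [Fintype ι] (z : ι → K) : (ι → K) →ₗ[k] K :=
  ∑ i, (LinearMap.mulRight k (z i)) ∘ₗ LinearMap.proj i

theorem dotMap_apply {ι : Type} [Fintype ι] (z u : ι → K) :
    dotMap k z u = ∑ i, u i * z i := by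
  simp [dotMap]

theorem dotMap_smul {ι : Type} [Fintype ι] (c : K) (z u : ι → K) :
    dotMap k z (c • u) = c * dotMap k z u := by
  simp [dotMap_apply, Finset.mul_sum, mul_assoc]

theorem dotMap_mem {ι : Type} [Fintype ι] {a : ι → ℤ} {m n : ℤ} {u z : ι → K}
    (hu : u ∈ freeFam (k := k) η ζ (fun i => 3 - a i) m) (hz : z ∈ freeFam (k := k) η ζ a n) :
    dotMap k z u ∈ polySpace (k := k) η ζ (m + n - 3) := by
  rw [dotMap_apply]
  refine sum_mem fun i _ => ?_
  rw [show m + n - 3 = (m - (3 - a i)) + (n - a i) by ring]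
  exact mul_mem_polySpace (mem_freeFam.mp hu i) (mem_freeFam.mp hz i)

/-- Coordinate vectors whose top forms annihilate the relations. -/
noncomputable def topHom {N : ℤ → Submodule k (Fin r → K)} (P : Pres η ζ N) (m : ℤ) :
    Submodule k (P.ι → K) :=
  freeFam (k := k) η ζ (fun i => 3 - P.a i) m ⊓
    ⨅ n : ℤ, ⨅ z ∈ freeFam (k := k) η ζ P.a n ⊓ LinearMap.ker (comb k P.g),
      (polySpace (k := k) η ζ (m + n - 4)).comap (dotMap k z)

theorem mem_topHom {N : ℤ → Submodule k (Fin r → K)} {P : Pres η ζ N} {m : ℤ} {u : P.ι → K} :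
    u ∈ topHom P m ↔ u ∈ freeFam (k := k) η ζ (fun i => 3 - P.a i) m ∧
      ∀ n, ∀ z ∈ freeFam (k := k) η ζ P.a n, comb k P.g z = 0 →
        dotMap k z u ∈ polySpace (k := k) η ζ (m + n - 4) := by
  simp [topHom, Submodule.mem_iInf]

theorem free_le_topHom {N : ℤ → Submodule k (Fin r → K)} (P : Pres η ζ N) (m : ℤ) :
    freeFam (k := k) η ζ (fun i => 3 - P.a i) (m - 1) ≤ topHom P m := fun u hu =>
  mem_topHom.mpr ⟨(freeFam_closed _).mono_le (by omega) hu, fun n z hz _ => by
    have := dotMap_mem hu hz
    rwa [show m - 1 + n - 3 = m + n - 4 by ring] at this⟩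

theorem topHom_closed {N : ℤ → Submodule k (Fin r → K)} (P : Pres η ζ N) :
    Closed η ζ (topHom P) where
  mono m u hu := by
    rw [mem_topHom] at hu ⊢
    exact ⟨(freeFam_closed _).mono m hu.1,
      fun n z hz h0 => polySpace_mono (by omega) (hu.2 n z hz h0)⟩
  eta m u hu := by
    rw [mem_topHom] at hu ⊢
    refine ⟨(freeFam_closed _).eta m u hu.1, fun n z hz h0 => ?_⟩
    rw [dotMap_smul, show m + 1 + n - 4 = 1 + (m + n - 4) by ring]
    exact mul_mem_polySpace eta_mem (hu.2 n z hz h0)
  zeta m u hu := by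
    rw [mem_topHom] at hu ⊢
    refine ⟨(freeFam_closed _).zeta m u hu.1, fun n z hz h0 => ?_⟩
    rw [dotMap_smul, show m + 1 + n - 4 = 1 + (m + n - 4) by ring]
    exact mul_mem_polySpace zeta_mem (hu.2 n z hz h0)

variable (hind : AlgebraicIndependent k ![η, ζ]) [FiniteDimensional (ratField k η ζ) K]
  [Algebra.IsSeparable (ratField k η ζ) K]

include hind

omit [FiniteDimensional (ratField k η ζ) K] [Algebra.IsSeparable (ratField k η ζ) K] in
theorem polySpace_mul_exact {p q : ℤ} {v w : K} (hv : v ∈ polySpace (k := k) η ζ p)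
    (hw : w ∈ polySpace (k := k) η ζ q) (hw' : w ∉ polySpace (k := k) η ζ (q - 1))
    (h : v * w ∈ polySpace (k := k) η ζ (p + q - 1)) : v ∈ polySpace (k := k) η ζ (p - 1) := by
  rcases lt_or_ge p 0 with hp | hp
  · rw [polySpace_neg hp, Submodule.mem_bot] at hv; rw [hv]; exact zero_mem _
  rcases lt_or_ge q 0 with hq | hq
  · rw [polySpace_neg hq, Submodule.mem_bot] at hw; exact absurd (hw ▸ zero_mem _) hw'
  obtain ⟨p, rfl⟩ := Int.eq_ofNat_of_zero_le hp
  obtain ⟨q, rfl⟩ := Int.eq_ofNat_of_zero_le hq
  obtain ⟨V, hV, rfl⟩ := mem_polySpace.mp hv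
  obtain ⟨W, hW, rfl⟩ := mem_polySpace.mp hw
  rcases eq_or_ne V 0 with rfl | hV0
  · simp
  have hW0 : W ≠ 0 := by rintro rfl; simp at hw'
  have hWd : W.totalDegree = q := by
    by_contra hne
    refine hw' ?_
    rw [show ((q : ℤ) - 1) = ((q - 1 : ℕ) : ℤ) by omega]
    exact mem_polySpace.mpr ⟨W, by omega, rfl⟩
  rcases Nat.eq_zero_or_pos (p + q) with h0 | h0
  · rw [show ((p : ℤ) + q - 1) = -1 by omega, polySpace_neg (by omega), Submodule.mem_bot,
      ← map_mul, map_eq_zero_iff _ (ev_injective hind)] at h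
    exact absurd h (mul_ne_zero hV0 hW0)
  · rw [show ((p : ℤ) + q - 1) = ((p + q - 1 : ℕ) : ℤ) by omega] at h
    obtain ⟨Z, hZ, hZe⟩ := mem_polySpace.mp h
    rw [← map_mul] at hZe
    rw [ev_injective hind hZe, MvPolynomial.totalDegree_mul_of_isDomain hV0 hW0] at hZ
    rw [show ((p : ℤ) - 1) = ((p - 1 : ℕ) : ℤ) by omega]
    exact mem_polySpace.mpr ⟨V, by omega, rfl⟩

/-- Generators of the family of top forms and their three bounds. -/
theorem exists_topData {N : ℤ → Submodule k (Fin r → K)} (hN : Fam η ζ N)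
    (hrefl : ∀ n, dualFam η ζ (dualFam η ζ N) n ≤ N n) (P : Pres η ζ N) :
    ∃ (S : Finset ℤ) (g : ℤ → ℤ),
      (∀ a, 0 ≤ g a ∧ g a ≤
        qdim (topHom P) (fun m => freeFam (k := k) η ζ (fun i => 3 - P.a i) (m - 1)) a) ∧
      (∀ m, qdim (topHom P) (fun m => freeFam (k := k) η ζ (fun i => 3 - P.a i) (m - 1)) m
        = ∑ a ∈ S, g a * lpos (m - a)) ∧
      (∀ m, (finrank k (dualFam η ζ N m) : ℤ) - finrank k (dualFam η ζ N (m - 1))
        ≤ ∑ a ∈ S, g a * lpos (m - a)) ∧
      (∀ n, (finrank k (N n) : ℤ) - finrank k (N (n - 1))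
        ≤ ∑ a ∈ S, g a * lpos (n - (3 - a))) ∧
      ∃ T : Finset P.ι,
        (∀ n, ∑ i : T, lpos (n - P.a i) ≤ (finrank k (N n) : ℤ) - finrank k (N (n - 1))) ∧
        ∀ m, qdim (topHom P) (fun m => freeFam (k := k) η ζ (fun i => 3 - P.a i) (m - 1)) m
          ≤ ∑ i : T, lpos (m - (3 - P.a i)) := by
  classical
  set aL : P.ι → ℤ := fun i => 3 - P.a i with haL
  let H : ℤ → Submodule k (P.ι → K) := topHom P
  let U : ℤ → Submodule k (P.ι → K) := fun m => freeFam (k := k) η ζ aL (m - 1)
  have hfdN := hN.fd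
  have hfdD := (hN.dual hind).fd
  have hfdF := fun n => fd_freeFam (k := k) (η := η) (ζ := ζ) aL n
  have hfdP := fun n => fd_freeFam (k := k) (η := η) (ζ := ζ) P.a n
  have hfdH : ∀ m, FiniteDimensional k (H m) := fun m =>
    Submodule.finiteDimensional_of_le inf_le_left
  have hH : Closed η ζ H := topHom_closed P
  have hU : ∀ m, U m ≤ H m := free_le_topHom P
  have hHmap : ∀ e : K, (e = η ∨ e = ζ) → ∀ m, (H (m - 1)).map (smulE k e) ≤ H m := by
    intro e he m
    refine Submodule.map_le_iff_le_comap.mpr fun v hv => ?_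
    rcases he with rfl | rfl
    · have := hH.eta _ v hv; rwa [sub_add_cancel] at this
    · have := hH.zeta _ v hv; rwa [sub_add_cancel] at this
  have hUmap : ∀ e : K, (e = η ∨ e = ζ) → ∀ m, (U (m - 1)).map (smulE k e) ≤ U m := by
    intro e he m
    refine Submodule.map_le_iff_le_comap.mpr fun v hv => ?_
    rcases he with rfl | rfl
    · have := (freeFam_closed aL).eta _ v hv; rwa [sub_add_cancel] at this
    · have := (freeFam_closed aL).zeta _ v hv; rwa [sub_add_cancel] at this
  let U' := adjoin (smulE k η) H U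
  let U'' := adjoin (smulE k ζ) H U'
  have hU' : ∀ m, U' m ≤ H m := adjoin_le hU (hHmap η (Or.inl rfl))
  have hU'' : ∀ m, U'' m ≤ H m := adjoin_le hU' (hHmap ζ (Or.inr rfl))
  have e1 : ∀ m, qdim H U' m = dif (qdim H U) m := fun m => by
    refine qdim_adjoin hU (hUmap η (Or.inl rfl)) (fun j v hv hv' => ?_) m
    refine mem_freeFam.mpr fun i => ?_
    have h1 := mem_freeFam.mp (mem_topHom.mp hv).1 i
    have h2 := mem_freeFam.mp hv' i
    rw [← sub_add_cancel (j - 1) 1] at h1 h2
    rw [show j - 1 - 1 + 1 - aL i = j - 1 - 1 - aL i + 1 by ring] at h1 h2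
    exact polySpace_sat hind h1 h2
  have e2 : ∀ m, qdim H U'' m = dif (dif (qdim H U)) m := fun m => by
    rw [qdim_adjoin hU' (fun j => map_adjoin_le (by
      refine LinearMap.ext fun v => ?_
      simp [smul_comm ζ η]) (hHmap ζ (Or.inr rfl)) (hUmap ζ (Or.inr rfl)) j)
      (fun j v hv hv' => ?_) m]
    · simp only [dif, e1]
    obtain ⟨f, hf, _, ⟨h, hh, rfl⟩, hfh⟩ := Submodule.mem_sup.mp hv'
    obtain ⟨hv1, hv2⟩ := mem_topHom.mp hv
    have top : ∀ i, ∃ p ∈ polySpace (k := k) η ζ (j - 1 - 1 - aL i),
        ∃ q ∈ polySpace (k := k) η ζ (j - 1 - 1 - aL i), p + η * q = v i := by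
      intro i
      have e : ζ * v i = f i + η * h i := (congrFun hfh i).symm
      have h := polySpace_top hind (mem_freeFam.mp hv1 i) (mem_freeFam.mp hf i)
        (mem_freeFam.mp (mem_topHom.mp hh).1 i) e
      rw [show j - 1 - 1 - aL i = j - 1 - aL i - 1 by ring]
      obtain ⟨p, hp, _, ⟨q, hq, rfl⟩, hpq⟩ := Submodule.mem_sup.mp h
      exact ⟨p, hp, q, hq, hpq⟩
    choose p hp q hq hpq using top
    have hvpq : p + η • q = v := funext hpq
    have hqf : q ∈ freeFam (k := k) η ζ aL (j - 1 - 1) := mem_freeFam.mpr hq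
    refine Submodule.mem_sup.mpr ⟨p, mem_freeFam.mpr hp, η • q, ⟨q, ?_, rfl⟩, hvpq⟩
    refine mem_topHom.mpr ⟨hqf, fun n z hz h0 => ?_⟩
    rw [show j - 1 - 1 + n - 4 = j + n - 6 by ring]
    refine polySpace_sat hind ?_ ?_
    · have := dotMap_mem hqf hz
      rwa [show j - 1 - 1 + n - 3 = j + n - 6 + 1 by ring] at this
    · have h1 := hv2 n z hz h0
      have h2 := dotMap_mem (mem_freeFam.mpr hp : p ∈ freeFam (k := k) η ζ aL (j - 1 - 1)) hz
      rw [show j - 1 + n - 4 = j + n - 6 + 1 by ring] at h1
      rw [show j - 1 - 1 + n - 3 = j + n - 6 + 1 by ring] at h2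
      rw [← hvpq, map_add, dotMap_smul] at h1
      simpa using sub_mem h1 h2
  obtain ⟨b, hb⟩ := exists_gen_of_le_free hH (fun n => inf_le_left)
  obtain ⟨A, hA⟩ := Finite.exists_le fun i : P.ι => |P.a i|
  let S := Finset.Icc (3 - A) (max (3 - A) b)
  have hHlow : ∀ m < 3 - A, H m = ⊥ := by
    intro m hm
    rw [eq_bot_iff]
    intro v hv
    rw [Submodule.mem_bot]
    funext i
    have h := mem_freeFam.mp (mem_topHom.mp hv).1 i
    have := hA i
    have := le_abs_self (P.a i)
    rw [polySpace_neg (by simp only [haL] at *; omega), Submodule.mem_bot] at h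
    exact h
  have hStop : ∀ m ∉ S, U'' m = H m := by
    intro m hm
    refine le_antisymm (hU'' m) ?_
    rcases lt_or_ge m (3 - A) with h | h
    · rw [hHlow m h]; exact bot_le
    · have hn : b < m := by
        by_contra hc; exact hm (Finset.mem_Icc.mpr ⟨h, le_trans (by omega) (le_max_right _ _)⟩)
      have hgen := hb (m - 1) (by omega)
      rw [sub_add_cancel] at hgen
      rw [hgen]
      exact sup_le (sup_le (le_sup_of_le_left (le_sup_of_le_left inf_le_left))
        (le_sup_of_le_left le_sup_right)) le_sup_right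
  set g : ℤ → ℤ := fun m => qdim H U'' m with hg
  have hexp : ∀ m, qdim H U m = ∑ a ∈ S, g a * lpos (m - a) :=
    eq_sum_lpos (b := 3 - A) (fun m hm => by
        have h1 : U m = ⊥ := eq_bot_iff.mpr ((hU m).trans (hHlow m hm).le)
        simp only [qdim]; rw [h1, hHlow m hm]; simp)
      S (fun m hm => by simp only [hg, qdim]; rw [hStop m hm]; simp)
      (fun a ha => (Finset.mem_Icc.mp ha).1) fun m => (e2 m).symm
  -- the dual injects
  have hdualH : ∀ m, (finrank k (dualFam η ζ N m) : ℤ) - finrank k (dualFam η ζ N (m - 1))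
      ≤ qdim H U m := by
    intro m
    have hmap : (dualFam η ζ N m).map P.values ≤ H m := by
      refine Submodule.map_le_iff_le_comap.mpr fun w hw =>
        mem_topHom.mpr ⟨P.values_mem hw, fun n z hz h0 => ?_⟩
      have : dotMap k z (P.values w) = 0 := by
        rw [dotMap_apply]
        have h := Pres.pair_comb P.g w (u := z)
          fun i => polySpace_le_ratField _ (mem_freeFam.mp hz i)
        rw [h0, map_zero, ZeroMemClass.coe_zero] at h
        rw [h]
        exact Finset.sum_congr rfl fun i _ => mul_comm _ _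
      rw [this]; exact zero_mem _
    have h := qdim_preimage_le P.values (L := dualFam η ζ N m) (hU m) hmap
    have hle : (dualFam η ζ N m ⊓ (U m).comap P.values) ≤ dualFam η ζ N (m - 1) := by
      rintro w ⟨-, hw⟩
      refine P.mem_dual_iff.mpr fun i => ?_
      have := mem_freeFam.mp hw i
      rwa [show m - 1 - aL i = m - 1 + P.a i - 3 by simp only [haL]; ring] at this
    have := Submodule.finrank_mono hle
    simp only [qdim]
    omega
  -- the pairing with generators of `H`
  have hcompl : ∀ a, ∃ C, C ≤ H a ∧ U'' a ⊔ C = H a ∧ (finrank k C : ℤ) = g a := by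
    intro a
    obtain ⟨C, hC⟩ := Submodule.exists_isCompl ((U'' a).comap (H a).subtype)
    refine ⟨C.map (H a).subtype, Submodule.map_subtype_le _ _, ?_, ?_⟩
    · have := congrArg (Submodule.map (H a).subtype) hC.sup_eq_top
      rwa [Submodule.map_sup, Submodule.map_comap_subtype, Submodule.map_subtype_top,
        inf_eq_right.mpr (hU'' a)] at this
    · have h := Submodule.finrank_add_eq_of_isCompl hC
      rw [(Submodule.comapSubtypeEquivOfLe (hU'' a)).finrank_eq] at h
      rw [Submodule.finrank_map_subtype_eq]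
      simp only [hg, qdim]
      omega
  choose C hCH hCsup hCdim using hcompl
  have hfdC : ∀ a, FiniteDimensional k (C a) := fun a =>
    Submodule.finiteDimensional_of_le (hCH a)
  let σ := Σ a : S, Fin (finrank k (C a))
  let ug : σ → (P.ι → K) := fun l => (Module.finBasis k (C l.1) l.2 : P.ι → K)
  let Θ : (P.ι → K) →ₗ[k] (σ → K) := LinearMap.pi fun l => dotMap k (ug l)
  let aσ : σ → ℤ := fun l => 3 - (l.1 : ℤ)
  have hNbound : ∀ n, (finrank k (N n) : ℤ) - finrank k (N (n - 1))
      ≤ ∑ a ∈ S, g a * lpos (n - (3 - a)) := by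
    intro n
    have hcomm : ∀ z u : P.ι → K, dotMap k u z = dotMap k z u := fun z u => by
      rw [dotMap_apply, dotMap_apply]; exact Finset.sum_congr rfl fun i _ => mul_comm _ _
    have hΘ : (freeFam (k := k) η ζ P.a n).map Θ ≤ freeFam (k := k) η ζ aσ n := by
      refine Submodule.map_le_iff_le_comap.mpr fun z hz => mem_freeFam.mpr fun l => ?_
      show dotMap k (ug l) z ∈ _
      rw [hcomm, show n - aσ l = (l.1 : ℤ) + n - 3 by simp only [aσ]; ring]
      exact dotMap_mem (mem_topHom.mp (hCH _ (Module.finBasis k (C l.1) l.2).2)).1 hz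
    have := fd_freeFam (k := k) (η := η) (ζ := ζ) aσ n
    have := fd_freeFam (k := k) (η := η) (ζ := ζ) aσ (n - 1)
    have h1 := qdim_preimage_le Θ (L := freeFam (k := k) η ζ P.a n)
      ((freeFam_closed aσ).mono_le (show n - 1 ≤ n by omega)) hΘ
    set G := freeFam (k := k) η ζ P.a n ⊓ (freeFam (k := k) η ζ aσ (n - 1)).comap Θ with hG
    have hGN : G.map (comb k P.g) ≤ N (n - 1) := by
      refine Submodule.map_le_iff_le_comap.mpr fun z ⟨hz, hz'⟩ => ?_
      show comb k P.g z ∈ N (n - 1)
      refine hrefl _ ?_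
      rw [mem_dualFam]
      intro j w hw
      -- all of `H` pairs with `z` into lower degree
      have hall : ∀ m, ∀ u ∈ H m, dotMap k z u ∈ polySpace (k := k) η ζ (m + n - 4) := by
        suffices ∀ i : ℕ, ∀ u ∈ H (3 - A - 1 + i),
            dotMap k z u ∈ polySpace (k := k) η ζ (3 - A - 1 + i + n - 4) by
          intro m u hu
          rcases lt_or_ge m (3 - A) with h | h
          · rw [hHlow m h] at hu; rw [(Submodule.mem_bot k).mp hu, map_zero]; exact zero_mem _
          · have e : 3 - A - 1 + ((m - (3 - A - 1)).toNat : ℤ) = m := by omega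
            have := this (m - (3 - A - 1)).toNat u (by rwa [e])
            rwa [e] at this
        intro i
        induction i with
        | zero =>
          intro u hu
          rw [hHlow _ (by simp)] at hu; rw [(Submodule.mem_bot k).mp hu, map_zero]; exact zero_mem _
        | succ i ih =>
          intro u hu
          set m := 3 - A - 1 + ((i + 1 : ℕ) : ℤ) with hm
          have hpred : m - 1 = 3 - A - 1 + (i : ℤ) := by rw [hm]; push_cast; ring
          have hT : U'' m ≤ (polySpace (k := k) η ζ (m + n - 4)).comap (dotMap k z) := by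
            refine sup_le (sup_le ?_ ?_) ?_
            · intro v hv
              refine Submodule.mem_comap.mpr ?_
              have := dotMap_mem hv hz
              rwa [show m - 1 + n - 3 = m + n - 4 by ring] at this
            all_goals
              refine Submodule.map_le_iff_le_comap.mpr fun v hv => ?_
              simp only [Submodule.mem_comap, DistribSMul.toLinearMap_apply]
              rw [dotMap_smul, show m + n - 4 = 1 + (m - 1 + n - 4) by ring]
              refine mul_mem_polySpace (by first | exact eta_mem | exact zeta_mem) ?_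
              rw [hpred] at hv ⊢
              exact ih v hv
          by_cases hs : m ∈ S
          · rw [← hCsup] at hu
            obtain ⟨t, ht, x, hx, rfl⟩ := Submodule.mem_sup.mp hu
            rw [map_add]
            refine add_mem (hT ht) ?_
            have hb := congrArg (fun y : C m => dotMap k z (y : P.ι → K))
              ((Module.finBasis k (C m)).sum_repr ⟨x, hx⟩)
            simp only [Submodule.coe_sum, Submodule.coe_smul, map_sum, map_smul] at hb
            rw [← hb]
            refine sum_mem fun l _ => Submodule.smul_mem _ _ ?_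
            have h := mem_freeFam.mp (show Θ z ∈ _ from hz') ⟨⟨m, hs⟩, l⟩
            rw [show n - 1 - aσ ⟨⟨m, hs⟩, l⟩ = m + n - 4 by simp only [aσ]; ring] at h
            rw [← hcomm]
            exact h
          · rw [← hStop m hs] at hu; exact hT hu
      have hwH : P.values w ∈ H j := mem_topHom.mpr ⟨P.values_mem hw, fun n' z' hz'' h0 => by
        have h := Pres.pair_comb P.g w (u := z')
          fun i => polySpace_le_ratField _ (mem_freeFam.mp hz'' i)
        rw [h0, map_zero, ZeroMemClass.coe_zero] at h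
        rw [dotMap_apply, show ∑ i, P.values w i * z' i = 0 from
          (Finset.sum_congr rfl fun i _ => mul_comm _ _).trans h.symm]
        exact zero_mem _⟩
      have h2 := hall j _ hwH
      have h := Pres.pair_comb P.g w (u := z)
        fun i => polySpace_le_ratField _ (mem_freeFam.mp hz i)
      rw [show n - 1 + j - 3 = j + n - 4 by ring, pair_apply,
        show ∑ i, comb k P.g z i * w i = ∑ i, w i * comb k P.g z i from
          Finset.sum_congr rfl fun i _ => mul_comm _ _, ← pair_apply, h]
      rw [dotMap_apply] at h2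
      rw [Finset.sum_congr rfl fun i _ => mul_comm (z i) _]
      exact h2
    have h2 := qdim_map_le (comb k P.g) (L := freeFam (k := k) η ζ P.a n) (G := G)
      (hG ▸ inf_le_left) hGN
    rw [P.img] at h2
    have h3 : (finrank k (freeFam (k := k) η ζ aσ n) : ℤ)
        - finrank k (freeFam (k := k) η ζ aσ (n - 1)) = ∑ a ∈ S, g a * lpos (n - (3 - a)) := by
      rw [finrank_freeFam hind, finrank_freeFam hind]
      push_cast
      rw [← Finset.sum_sub_distrib, Fintype.sum_sigma, ← Finset.sum_coe_sort S]
      refine Finset.sum_congr rfl fun a _ => ?_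
      simp [aσ, hCdim, lpos, show n - (3 - (a : ℤ)) - 1 = n - 1 - (3 - (a : ℤ)) by ring]
      ring
    omega
  -- a top-independent set of generators
  let Ind : Finset P.ι → Prop := fun T => ∀ n, ∀ z ∈ freeFam (k := k) η ζ P.a n,
    (∀ i ∉ T, z i = 0) → comb k P.g z ∈ N (n - 1) → z ∈ freeFam (k := k) η ζ P.a (n - 1)
  obtain ⟨T, hT, hTmax⟩ := (Finset.univ.filter Ind).exists_max_image Finset.card
    ⟨∅, Finset.mem_filter.mpr ⟨Finset.mem_univ _, fun n z _ h0 _ => mem_freeFam.mpr fun i => by
      rw [h0 i (Finset.notMem_empty i)]; exact zero_mem _⟩⟩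
  replace hT : Ind T := (Finset.mem_filter.mp hT).2
  let pr : (P.ι → K) →ₗ[k] (T → K) := LinearMap.funLeft k K Subtype.val
  have hTN : ∀ n, ∑ i : T, lpos (n - P.a i) ≤ (finrank k (N n) : ℤ) - finrank k (N (n - 1)) := by
    intro n
    let emb : (T → K) →ₗ[k] (P.ι → K) :=
      { toFun := fun f i => if h : i ∈ T then f ⟨i, h⟩ else 0
        map_add' := fun f f' => by funext i; simp only [Pi.add_apply]; split_ifs <;> simp
        map_smul' := fun t f => by
          funext i; simp only [Pi.smul_apply, RingHom.id_apply]; split_ifs <;> simp }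
    let a' : T → ℤ := fun i => P.a i
    have hemb : ∀ n, ∀ f ∈ freeFam (k := k) η ζ a' n, emb f ∈ freeFam (k := k) η ζ P.a n := by
      intro n f hf
      refine mem_freeFam.mpr fun i => ?_
      simp only [emb, LinearMap.coe_mk, AddHom.coe_mk]
      split_ifs with h
      · exact mem_freeFam.mp hf ⟨i, h⟩
      · exact zero_mem _
    have := fd_freeFam (k := k) (η := η) (ζ := ζ) a' n
    have hmap : (freeFam (k := k) η ζ a' n).map (comb k P.g ∘ₗ emb) ≤ N n := by
      refine Submodule.map_le_iff_le_comap.mpr fun f hf => ?_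
      rw [← P.img]
      exact ⟨_, hemb n f hf, rfl⟩
    have h1 := qdim_preimage_le (comb k P.g ∘ₗ emb) (hN.mono_le (show n - 1 ≤ n by omega)) hmap
    have hle : freeFam (k := k) η ζ a' n ⊓ (N (n - 1)).comap (comb k P.g ∘ₗ emb) ≤
        freeFam (k := k) η ζ a' (n - 1) := by
      rintro f ⟨hf, hf'⟩
      have := hT n (emb f) (hemb n f hf) (fun i hi => by simp [emb, hi]) hf'
      refine mem_freeFam.mpr fun i => ?_
      have h := mem_freeFam.mp this i
      simpa [emb] using h
    have := fd_freeFam (k := k) (η := η) (ζ := ζ) a' (n - 1)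
    have h2 := Submodule.finrank_mono hle
    have h3 : (finrank k (freeFam (k := k) η ζ a' n) : ℤ)
        - finrank k (freeFam (k := k) η ζ a' (n - 1)) = ∑ i : T, lpos (n - P.a i) := by
      rw [finrank_freeFam hind, finrank_freeFam hind]
      push_cast
      rw [← Finset.sum_sub_distrib]
      refine Finset.sum_congr rfl fun i _ => ?_
      simp [a', lpos, show n - P.a i - 1 = n - 1 - P.a i by ring]
    omega
  have hHT : ∀ m, qdim H U m ≤ ∑ i : T, lpos (m - aL i) := by
    intro m
    let a' : T → ℤ := fun i => aL i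
    have := fd_freeFam (k := k) (η := η) (ζ := ζ) a' m
    have := fd_freeFam (k := k) (η := η) (ζ := ζ) a' (m - 1)
    have hmap : (H m).map pr ≤ freeFam (k := k) η ζ a' m :=
      Submodule.map_le_iff_le_comap.mpr fun u hu =>
        mem_freeFam.mpr fun i => mem_freeFam.mp (mem_topHom.mp hu).1 i
    have h1 := qdim_preimage_le pr ((freeFam_closed a').mono_le (show m - 1 ≤ m by omega)) hmap
    have hle : H m ⊓ (freeFam (k := k) η ζ a' (m - 1)).comap pr ≤ U m := by
      rintro u ⟨hu, hu'⟩
      refine mem_freeFam.mpr fun i => ?_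
      by_cases hi : i ∈ T
      · exact mem_freeFam.mp hu' ⟨i, hi⟩
      have hnot : ¬ Ind (insert i T) := fun h => by
        have := hTmax (insert i T) (Finset.mem_filter.mpr ⟨Finset.mem_univ _, h⟩)
        rw [Finset.card_insert_of_notMem hi] at this
        omega
      simp only [Ind, not_forall] at hnot
      obtain ⟨n, z, hz, hsupp, hzN, hznot⟩ := hnot
      rw [← P.img] at hzN
      obtain ⟨y, hy, hye⟩ := hzN
      have hzi : z i ∉ polySpace (k := k) η ζ (n - 1 - P.a i) := by
        intro hc
        refine hznot ?_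
        have hsingle : Pi.single i (z i) ∈ freeFam (k := k) η ζ P.a (n - 1) := by
          refine mem_freeFam.mpr fun l => ?_
          rcases eq_or_ne l i with rfl | hl
          · simpa using hc
          · simp [hl]
        have := hT n (z - Pi.single i (z i)) (sub_mem hz
            ((freeFam_closed P.a).mono_le (by omega) hsingle)) (fun l hl => by
          rcases eq_or_ne l i with rfl | hli
          · simp
          · simp [hli, hsupp l (by simp [hl, hli])]) (by
          rw [map_sub]
          refine sub_mem ?_ ?_ <;> rw [← P.img]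
          · exact ⟨y, hy, hye⟩
          · exact ⟨_, hsingle, rfl⟩)
        simpa using add_mem this hsingle
      have hrel := (mem_topHom.mp hu).2 n (z - y)
        (sub_mem hz ((freeFam_closed P.a).mono_le (by omega) hy)) (by rw [map_sub, hye, sub_self])
      have hy' : dotMap k y u ∈ polySpace (k := k) η ζ (m + n - 4) := by
        have := dotMap_mem (mem_topHom.mp hu).1 hy
        rwa [show m + (n - 1) - 3 = m + n - 4 by ring] at this
      have hz' : dotMap k z u ∈ polySpace (k := k) η ζ (m + n - 4) := by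
        have := add_mem hrel hy'
        simpa [dotMap_apply, ← Finset.sum_add_distrib, ← mul_add] using this
      rw [dotMap_apply, ← Finset.add_sum_erase _ _ (Finset.mem_univ i)] at hz'
      have hrest : ∑ l ∈ Finset.univ.erase i, u l * z l ∈ polySpace (k := k) η ζ (m + n - 4) := by
        refine sum_mem fun l hl => ?_
        by_cases hlT : l ∈ T
        · have h := mul_mem_polySpace (mem_freeFam.mp hu' ⟨l, hlT⟩) (mem_freeFam.mp hz l)
          simp only [a', haL] at h
          rwa [show m - 1 - (3 - P.a l) + (n - P.a l) = m + n - 4 by ring] at h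
        · rw [hsupp l (by simp [Finset.ne_of_mem_erase hl, hlT]), mul_zero]; exact zero_mem _
      have := (Submodule.add_mem_iff_left _ hrest).mp hz'
      rw [show m - 1 - aL i = m - aL i - 1 by ring]
      refine polySpace_mul_exact hind (q := n - P.a i) (mem_freeFam.mp (mem_topHom.mp hu).1 i)
        (mem_freeFam.mp hz i) (by rwa [show n - P.a i - 1 = n - 1 - P.a i by ring]) ?_
      rwa [show m - aL i + (n - P.a i) - 1 = m + n - 4 by simp only [haL]; ring]
    have h2 := Submodule.finrank_mono hle
    have h3 : (finrank k (freeFam (k := k) η ζ a' m) : ℤ)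
        - finrank k (freeFam (k := k) η ζ a' (m - 1)) = ∑ i : T, lpos (m - aL i) := by
      rw [finrank_freeFam hind, finrank_freeFam hind]
      push_cast
      rw [← Finset.sum_sub_distrib]
      refine Finset.sum_congr rfl fun i _ => ?_
      simp [a', lpos, show m - aL i - 1 = m - 1 - aL i by ring]
    simp only [qdim]
    omega
  refine ⟨S, g, fun a => ⟨qdim_nonneg hU'' a, ?_⟩, hexp,
    fun m => (hdualH m).trans_eq (hexp m), hNbound, T, hTN, hHT⟩
  have h1 : finrank k (U a) ≤ finrank k (U'' a) := by
    have : FiniteDimensional k (U'' a) := Submodule.finiteDimensional_of_le (hU'' a)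
    exact Submodule.finrank_mono (le_sup_of_le_left le_sup_left)
  show qdim H U'' a ≤ qdim H U a
  simp only [qdim]
  omega

end Vale.Agent.P190.Hilb
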